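import Vale.Agent.P078.Tr.Iter.Cleanup.Objective

/-!
# Iteration, part Cleanup: truncation and one simultaneous restriction make a state strict
-/

open scoped ComplexOrder InnerProductSpace

noncomputable section

namespace Vale.Agent.P078.Tr.Iter

universe u

open Clean in
theorem cleanup : CleanupStatement.{u} := by
  intro H _ _ _ S P y z hB hP hy _ hE0 hz
  have hw : Wf z := wf_of_core hz.toCore
  choose b hbM hb0 hbsup hbK hbG hbtr using fun c σ =>
    truncate (S := S) (half_pos hP.tau_pos) hP.tau_pos (hP.tau_le.trans (by norm_num))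
      (hw.K_mem hy c σ) (S.le _ (hw.sup_mem c)) (hz.K_lo c σ) (hw.sup_proj c)
      (hw.K_mul_one_sub c σ)
  have h : Ctx P y z b := ⟨hB, hP, hy, hE0, hz, hbM, hb0, hbsup, hbK, hbG, hbtr⟩
  exact ⟨tidy z y b, ⟨h.hcore, h.hK'lo, h.live_a', h.live_fz', h.act_F'⟩, h.obj_le⟩

end Vale.Agent.P078.Tr.Iter
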