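import Vale.Agent.P078.Tr.Iter.State
import Vale.Agent.P078.Tr.Basics

/-!
# From the walk to paving

The walk is applied to a multiple of `x - E x`; the slack is cut away by a projection commuting with
the frozen points.
-/

open scoped ComplexOrder InnerProductSpace

noncomputable section

namespace Vale.Agent.P078.Tr.Iter

universe u

variable {H : Type u} [NormedAddCommGroup H] [InnerProductSpace ℂ H] [CompleteSpace H]
  {S : Tracial H}

open Tracial

namespace Reduce

/-- A self-adjoint operator between `-c` and `c` has norm at most `c`. -/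
lemma norm_le_of_bounds {x : Op H} (hs : IsSelfAdjoint x) {c : ℝ} (hc : 0 ≤ c)
    (h1 : x ≤ c • (1 : Op H)) (h2 : -x ≤ c • (1 : Op H)) : ‖x‖ ≤ c := by
  obtain (h | _) := subsingleton_or_nontrivial (Op H)
  · simp [Subsingleton.elim x 0, hc]
  rw [← Algebra.algebraMap_eq_smul_one] at h1 h2
  rw [neg_le, ← map_neg] at h2
  rcases CStarAlgebra.norm_or_neg_norm_mem_spectrum (a := x) hs with hm | hm
  · exact (le_algebraMap_iff_spectrum_le (a := x) hs).1 h1 _ hm
  · have := (algebraMap_le_iff_le_spectrum (a := x) hs).1 h2 _ hm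
    linarith

omit [CompleteSpace H] in
lemma mul_sum_orth {r : ℕ} {f : Fin r → Op H} (hidem : ∀ c, f c * f c = f c)
    (ho : ∀ c c', c ≠ c' → f c * f c' = 0) (c : Fin r) : f c * ∑ c', f c' = f c := by
  rw [Finset.mul_sum, Finset.sum_eq_single c (fun c' _ hne => ho c c' hne.symm) (by simp), hidem]

omit [CompleteSpace H] in
lemma sum_mul_orth {r : ℕ} {f : Fin r → Op H} (hidem : ∀ c, f c * f c = f c)
    (ho : ∀ c c', c ≠ c' → f c * f c' = 0) (c : Fin r) : (∑ c', f c') * f c = f c := by
  rw [Finset.sum_mul, Finset.sum_eq_single c (fun c' _ hne => ho c' c hne) (by simp), hidem]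

lemma isStarProjection_sum {r : ℕ} {f : Fin r → Op H} (hp : ∀ c, IsStarProjection (f c))
    (ho : ∀ c c', c ≠ c' → f c * f c' = 0) : IsStarProjection (∑ c, f c) := by
  refine ⟨?_, isSelfAdjoint_sum _ fun c _ => (hp c).isSelfAdjoint⟩
  show (∑ c, f c) * ∑ c, f c = ∑ c, f c
  rw [Finset.sum_mul]
  exact Finset.sum_congr rfl fun c _ => mul_sum_orth (fun c => (hp c).isIdempotentElem.eq) ho c

lemma conj_le {x y q : Op H} (hq : IsStarProjection q) (h : x ≤ y) : q * x * q ≤ q * y * q := by
  simpa [hq.isSelfAdjoint.star_eq] using star_left_conjugate_le_conjugate h q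

lemma conj_nonneg {x q : Op H} (hq : IsStarProjection q) (h : 0 ≤ x) : 0 ≤ q * x * q := by
  simpa using conj_le hq h

/-- Compressing does not raise the trace of a positive element. -/
lemma tr_compress_le {B f : Op H} (hB : B ∈ S.M) (h0 : 0 ≤ B) (hf : f ∈ S.M)
    (hp : IsStarProjection f) : S.tr (f * B * f) ≤ S.tr B := by
  have hf' : (1 - f) ∈ S.M := sub_mem (one_mem _) hf
  have e1 : S.tr (f * B * f) = S.tr (f * B) := by
    rw [S.tr_comm (mul_mem hf hB) hf, ← mul_assoc, hp.isIdempotentElem.eq]
  have e2 : S.tr ((1 - f) * B * (1 - f)) = S.tr ((1 - f) * B) := by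
    rw [S.tr_comm (mul_mem hf' hB) hf', ← mul_assoc, hp.one_sub.isIdempotentElem.eq]
  have h := S.tr_nonneg (conj_nonneg hp.one_sub h0)
  rw [e2, sub_mul, one_mul, S.tr_sub] at h
  linarith

/-- The slack cut at `1`: a projection below `f` commuting with it, of nearly full trace, on which
the slack is at most `1`. -/
lemma exists_cut {f T : Op H} (hf : f ∈ S.M) (hfp : IsStarProjection f) (hT : T ∈ S.M)
    (hT0 : 0 ≤ T) (h1 : f * T = T) (h2 : T * f = T) :
    ∃ q ∈ S.M, IsStarProjection q ∧ f * q = q ∧ q * f = q ∧ q * T * q ≤ q ∧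
      S.tr (1 - q) ≤ S.tr (1 - f) + S.tr T := by
  set e := cut T 1 with he
  have hep : IsStarProjection e := isStarProjection_cut T 1
  have hem : e ∈ S.M := S.cut_mem_M hT 1
  have hc : Commute f e := commute_cut 1 (show Commute T f by rw [Commute, SemiconjBy, h1, h2])
  have hce : Commute f (1 - e) := (Commute.one_right f).sub_right hc
  have hqp : IsStarProjection (f * (1 - e)) := hfp.mul hep.one_sub hce
  refine ⟨f * (1 - e), mul_mem hf (sub_mem (one_mem _) hem), hqp, ?_, ?_, ?_, ?_⟩
  · rw [← mul_assoc, hfp.isIdempotentElem.eq]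
  · rw [hce.eq, mul_assoc, hfp.isIdempotentElem.eq]
  · have hs : IsSelfAdjoint T := IsSelfAdjoint.of_nonneg hT0
    have h := conj_le hfp (le_of_cut hs 1)
    rw [mul_zero, zero_mul, one_smul] at h
    have hi : (1 - e) * (1 - e) = 1 - e := hep.one_sub.isIdempotentElem.eq
    have eq1 : f * ((1 - e) * (T - 1) * (1 - e)) * f =
        f * (1 - e) * T * (f * (1 - e)) - f * (1 - e) := by
      calc f * ((1 - e) * (T - 1) * (1 - e)) * f
          = f * (1 - e) * T * ((1 - e) * f) - f * ((1 - e) * (1 - e)) * f := by noncomm_ring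
        _ = f * (1 - e) * T * (f * (1 - e)) - f * (1 - e) * f := by rw [hi, hce.eq]
        _ = f * (1 - e) * T * (f * (1 - e)) - f * (1 - e) := by
          congr 1
          rw [mul_assoc, ← hce.eq, ← mul_assoc, hfp.isIdempotentElem.eq]
    rw [eq1] at h
    exact sub_nonpos.1 h
  · have hle : f * e ≤ e := by
      have hpr : IsStarProjection ((1 - f) * e) :=
        hfp.one_sub.mul hep ((Commute.one_left e).sub_left hc)
      have := hpr.nonneg
      rwa [sub_mul, one_mul, sub_nonneg] at this
    have heT : e ≤ T := by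
      have := cut_le_hinge (IsSelfAdjoint.of_nonneg hT0) (zero_le_one' ℝ) (h := T)
      rw [sub_zero, one_smul] at this
      refine this.trans (le_of_eq ?_)
      rw [hinge]
      calc cfc (fun s : ℝ => max (s - 0) 0) T = cfc (fun s : ℝ => s) T := cfc_congr fun s hs => by
            simp [spectrum_nonneg_of_nonneg hT0 hs]
        _ = T := cfc_id' ℝ T
    have := (S.tr_mono hle).trans (S.tr_mono heT)
    rw [mul_sub, mul_one, sub_sub_eq_add_sub, add_sub_right_comm, S.tr_add]
    linarith

end Reduce

open Reduce in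
/-- The main theorem from the walk. -/
theorem tracial_paving_of_walk (hB : BasicsStatement.{u}) (h : WalkStatement.{u}) :
    TracialPavingStatement.{u} := by
  refine ⟨5010 ^ 2, fun H _ _ _ S x ε hx hxs hε hε1 r hr F δ hδ => ?_⟩
  have hb := hB H S
  have hr0 : (5010 : ℝ) ^ 2 ≤ r := by
    refine le_trans ?_ hr
    rw [le_div_iff₀ (by positivity)]
    nlinarith
  have hr1 : 1000 ≤ r := by
    exact_mod_cast (show ((1000 : ℕ) : ℝ) ≤ r by push_cast; linarith)
  -- the element to be paved
  set a := S.E x with ha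
  have haA : a ∈ S.A := hb.E_mem x hx
  have has : IsSelfAdjoint a := E_isSelfAdjoint hb hx hxs
  set s : ℝ := Real.sqrt r / (10 * ‖x‖) with hs
  have hs0 : 0 ≤ s := by positivity
  set y : Op H := s • (x - a) with hy
  have hyM : y ∈ S.M := S.rsmul_mem_M s (sub_mem hx (S.le a haA))
  have hys : IsSelfAdjoint y := (IsSelfAdjoint.all s).smul (hxs.sub has)
  have hyE : S.E y = 0 := by
    rw [hy, E_rsmul hb s (sub_mem hx (S.le a haA)), E_sub hb hx (S.le a haA), hb.E_self a haA,
      sub_self, smul_zero]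
  have hyn : ‖y‖ ≤ Real.sqrt r / 5 := by
    rw [hy, norm_smul, Real.norm_of_nonneg hs0]
    have hxa : ‖x - a‖ ≤ 2 * ‖x‖ := (norm_sub_le x a).trans (by linarith [hb.E_norm x hx])
    refine (mul_le_mul_of_nonneg_left hxa hs0).trans ?_
    rcases (norm_nonneg x).eq_or_lt with h0 | h0
    · rw [← h0, mul_zero, mul_zero]; positivity
    · exact le_of_eq (by rw [hs]; field_simp; ring)
  obtain ⟨η, hη, hsmall⟩ := S.exists_small_proj F hδ
  obtain ⟨fro, B, hfro, horth, hBm, hbound, htr⟩ := h H S r y η hb hr1 hyM hys hyE hyn hη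
  have hfM : ∀ c, fro c ∈ S.M := fun c => S.le _ (hfro c).1
  have hidem : ∀ c, fro c * fro c = fro c := fun c => (hfro c).2.isIdempotentElem.eq
  set f : Op H := ∑ c, fro c with hfdef
  have hfp : IsStarProjection f := isStarProjection_sum (fun c => (hfro c).2) horth
  have hfA : f ∈ S.A := sum_mem fun c _ => (hfro c).1
  set T : Op H := ∑ c, ∑ σ, fro c * B c σ * fro c with hT
  have hTM : T ∈ S.M :=
    sum_mem fun c _ => sum_mem fun σ _ => mul_mem (mul_mem (hfM c) (hBm c σ).1) (hfM c)
  have hT0 : 0 ≤ T :=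
    Finset.sum_nonneg fun c _ => Finset.sum_nonneg fun σ _ => conj_nonneg (hfro c).2 (hBm c σ).2
  have hfT : f * T = T := by
    rw [hT, Finset.mul_sum]
    refine Finset.sum_congr rfl fun c _ => ?_
    rw [Finset.mul_sum]
    refine Finset.sum_congr rfl fun σ _ => ?_
    rw [← mul_assoc, ← mul_assoc, sum_mul_orth hidem horth c]
  have hTf : T * f = T := by
    rw [hT, Finset.sum_mul]
    refine Finset.sum_congr rfl fun c _ => ?_
    rw [Finset.sum_mul]
    refine Finset.sum_congr rfl fun σ _ => ?_
    rw [mul_assoc, mul_sum_orth hidem horth c]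
  obtain ⟨q, hqM, hqp, hfq, hqf, hqT, hqtr⟩ := exists_cut (S.le f hfA) hfp hTM hT0 hfT hTf
  have htq : S.tr (1 - q) ≤ η := by
    have hTt : S.tr T ≤ ∑ c, ∑ σ, S.tr (B c σ) := by
      rw [hT, S.tr_sum]
      refine Finset.sum_le_sum fun c _ => ?_
      rw [S.tr_sum]
      exact Finset.sum_le_sum fun σ _ =>
        tr_compress_le (hBm c σ).1 (hBm c σ).2 (hfM c) (hfro c).2
    linarith
  -- the partition: the rest goes to the first colour
  let i0 : Fin r := ⟨0, by omega⟩
  let p : Fin r → Op H := fun c => fro c + if c = i0 then 1 - f else 0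
  have hqrest : q * (1 - f) = 0 := by rw [mul_sub, mul_one, hqf, sub_self]
  have hrestq : (1 - f) * q = 0 := by rw [sub_mul, one_mul, hfq, sub_self]
  have hfr : ∀ c, fro c * (1 - f) = 0 := fun c => by
    rw [mul_sub, mul_one, mul_sum_orth hidem horth c, sub_self]
  have hrf : ∀ c, (1 - f) * fro c = 0 := fun c => by
    rw [sub_mul, one_mul, sum_mul_orth hidem horth c, sub_self]
  have hpp : ∀ c, p c ∈ S.A ∧ IsStarProjection (p c) := by
    intro c
    by_cases hc : c = i0
    · simp only [p, if_pos hc]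
      exact ⟨add_mem (hfro c).1 (sub_mem (one_mem _) hfA), (hfro c).2.add hfp.one_sub (hfr c)⟩
    · simp only [p, if_neg hc, add_zero]
      exact hfro c
  have hpo : ∀ c c', c ≠ c' → p c * p c' = 0 := by
    intro c c' hne
    by_cases hc : c = i0
    · have hc' : c' ≠ i0 := fun e => hne (hc.trans e.symm)
      simp only [p, if_pos hc, if_neg hc', add_zero, add_mul, horth c c' hne, hrf c', add_zero]
    · simp only [p, if_neg hc, add_zero, mul_add, horth c c' hne, zero_add]
      split_ifs
      · exact hfr c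
      · exact mul_zero _
  have hps : ∑ c, p c = 1 := by
    simp only [p, Finset.sum_add_distrib, Finset.sum_ite_eq', Finset.mem_univ, if_true, ← hfdef]
    abel
  refine ⟨p, a, q, hpp, hpo, hps, haA, has, hb.E_norm x hx, hqM, hqp,
    hsmall (1 - q) (sub_mem (one_mem _) hqM) hqp.one_sub htq, ?_⟩
  -- the bound on `q`
  set w : Op H := ∑ c, fro c * y * fro c with hw
  have hqp' : ∀ c, q * p c = q * fro c := fun c => by
    simp only [p, mul_add]; split_ifs <;> simp [hqrest]
  have hpq' : ∀ c, p c * q = fro c * q := fun c => by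
    simp only [p, add_mul]; split_ifs <;> simp [hrestq]
  have hp2 : ∀ c, p c * a * p c = a * p c := fun c => by
    rw [S.comm _ (hpp c).1 a haA, mul_assoc, (hpp c).2.isIdempotentElem.eq]
  have hPa : ∑ c, p c * a * p c = a := by
    rw [Finset.sum_congr rfl fun c _ => hp2 c, ← Finset.mul_sum, hps, mul_one]
  have hqw : q * w * q = s • (q * (∑ c, p c * x * p c - a) * q) := by
    have e1 : s • (∑ c, p c * x * p c - a) = ∑ c, p c * y * p c := by
      rw [show ∑ c, p c * x * p c - a = ∑ c, (p c * x * p c - p c * a * p c) by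
        rw [Finset.sum_sub_distrib, hPa], Finset.smul_sum]
      refine Finset.sum_congr rfl fun c _ => ?_
      rw [hy, mul_smul_comm, smul_mul_assoc, mul_sub, sub_mul]
    rw [← smul_mul_assoc, ← mul_smul_comm, e1, hw, Finset.mul_sum, Finset.mul_sum, Finset.sum_mul,
      Finset.sum_mul]
    refine Finset.sum_congr rfl fun c _ => ?_
    rw [show q * (p c * y * p c) * q = q * p c * y * (p c * q) by noncomm_ring, hqp', hpq']
    noncomm_ring
  have hws : IsSelfAdjoint w := isSelfAdjoint_sum _ fun c _ => by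
    simpa [(hfro c).2.isSelfAdjoint.star_eq] using hys.conjugate (fro c)
  have hside : ∀ σ, q * (sg σ • w) * q ≤ (501 : ℝ) • (1 : Op H) := by
    intro σ
    have h1 : sg σ • w ≤ (500 : ℝ) • f + T := by
      rw [hw, hfdef, Finset.smul_sum, Finset.smul_sum, hT, ← Finset.sum_add_distrib]
      refine Finset.sum_le_sum fun c _ => (hbound c σ).trans (add_le_add le_rfl ?_)
      exact Finset.single_le_sum (fun τ _ => conj_nonneg (hfro c).2 (hBm c τ).2) (Finset.mem_univ σ)
    refine (conj_le hqp h1).trans ?_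
    rw [mul_add, add_mul, mul_smul_comm, smul_mul_assoc, hqf, hqp.isIdempotentElem.eq]
    refine (add_le_add le_rfl hqT).trans ?_
    rw [show (500 : ℝ) • q + q = (501 : ℝ) • q by
      rw [show (501 : ℝ) = 500 + 1 by norm_num, add_smul, one_smul]]
    exact smul_le_smul_of_nonneg_left hqp.le_one (by norm_num)
  have hn : ‖q * w * q‖ ≤ 501 := by
    refine norm_le_of_bounds ?_ (by norm_num) ?_ ?_
    · simpa [hqp.isSelfAdjoint.star_eq] using hws.conjugate q
    · simpa [sg] using hside true
    · simpa [sg] using hside false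
  rcases (norm_nonneg x).eq_or_lt with h0 | h0
  · have hx0 : x = 0 := norm_eq_zero.1 h0.symm
    have ha0 : a = 0 := by rw [ha, hx0]; exact E_zero hb
    simp [hx0, ha0]
  · rw [hqw, norm_smul, Real.norm_of_nonneg hs0] at hn
    have hsr : 5010 ≤ ε * Real.sqrt r := by
      have h2 : (5010 / ε) ^ 2 ≤ (r : ℝ) := by rwa [div_pow]
      have := Real.le_sqrt_of_sq_le h2
      rwa [div_le_iff₀' hε] at this
    have hsq : 0 < Real.sqrt r := Real.sqrt_pos.2 (by positivity)
    have hspos : 0 < s := by positivity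
    refine le_of_mul_le_mul_left (hn.trans ?_) hspos
    rw [hs]
    field_simp
    nlinarith

end Vale.Agent.P078.Tr.Iter
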