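import Vale.Agent.P078.Tr.Iter.Facts

/-!
# The walk

Start from all colours live with weight `r`; alternate steps and cleanups. The objective falls by a
fixed amount at every round and is bounded below, so the active mass becomes small.
-/

open scoped ComplexOrder InnerProductSpace

noncomputable section

namespace Vale.Agent.P078.Tr.Iter

universe u

variable {H : Type u} [NormedAddCommGroup H] [InnerProductSpace ℂ H] [CompleteSpace H]
  {S : Tracial H}

open Tracial

namespace Walk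

lemma mul_isSelfAdjoint {a b : Op H} (ha : a ∈ S.A) (hb : b ∈ S.A) (hs : IsSelfAdjoint a)
    (ht : IsSelfAdjoint b) : IsSelfAdjoint (a * b) := by
  rw [IsSelfAdjoint, star_mul, hs.star_eq, ht.star_eq, S.comm b hb a ha]

variable {P : Par} {y : Op H}

lemma tr_act_phi_nonneg (z : St S P.r) (h : z.Core P) (κ : ℝ) (F : Op H) :
    0 ≤ S.tr (z.act * phi S κ F) := by
  refine S.tr_nonneg ((nonneg_iff (mul_mem h.act_mem (fnA_mem _))
    (mul_isSelfAdjoint h.act_mem (fnA_mem _) h.act_proj.isSelfAdjoint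
      (fnA_isSelfAdjoint _))).2 fun χ => ?_)
  show 0 ≤ S.ev χ (z.act * appA S (phiFun κ) F)
  rw [ev_mul (y := appA S (phiFun κ) F) h.act_mem (fnA_mem _) h.act_proj.isSelfAdjoint, ev_appA]
  refine mul_nonneg ?_ (Real.exp_pos _).le
  rcases ev_proj (χ := χ) h.act_mem h.act_proj with e | e <;> rw [e]
  norm_num

lemma gam_nonneg (z : St S P.r) (h : z.Core P) {t : ℝ} (ht : 0 < t)
    (hK : ∀ c σ, t • (1 : Op H) ≤ z.K y c σ) : 0 ≤ z.gam P y := by
  refine Finset.sum_nonneg fun c _ => Finset.sum_nonneg fun σ _ => ?_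
  have hs : star (z.sup c) = z.sup c := (h.sup_proj c).isSelfAdjoint.star_eq
  have h0 := star_left_conjugate_nonneg (inverse_nonneg ht (hK c σ)) (z.sup c)
  have e : z.sup c * z.G y c σ = star (z.sup c) * z.G y c σ * z.sup c := by
    rw [hs, (h.commute_sup_G c σ).eq, mul_assoc, h.sup_mul_self]
  rw [e]
  exact S.tr_nonneg h0

lemma F_isSelfAdjoint (hB : Basics S) (z : St S P.r) (h : z.Core P) (hy : y ∈ S.M) {t : ℝ}
    (ht : 0 < t) (hK : ∀ c σ, t • (1 : Op H) ≤ z.K y c σ) : IsSelfAdjoint (z.F y) := by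
  have hxi : ∀ c σ, IsSelfAdjoint ((z.side y c).xi σ) := fun c σ =>
    (h.a_sa c).sub (inverse_isSelfAdjoint
      (E_isSelfAdjoint hB (h.G_mem hy c σ) (IsSelfAdjoint.of_nonneg (inverse_nonneg ht (hK c σ)))))
  refine (isSelfAdjoint_sum _ fun c _ => ?_).add h.loss_sa
  refine mul_isSelfAdjoint (h.live_mem c) (mul_mem (St.pot_mem h) (St.fz_mem hB h hy))
    (h.live_proj c).isSelfAdjoint ?_
  exact mul_isSelfAdjoint (St.pot_mem h) (St.fz_mem hB h hy) (St.pot_sa h)
    (((IsSelfAdjoint.one _).sub (hxi c false)).sub (hxi c true))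

/-- The objective of a strict state bounds its budgets. -/
lemma obj_ge (hB : Basics S) (hP : P.Ok) (hy : y ∈ S.M) (hyE : S.E y = 0) (z : St S P.r)
    (h : z.Strict P y) :
    z.mF + P.lam1 * (z.beta / P.tau ^ 2) - P.lam2 * P.r ≤ z.obj P y := by
  have hc := h.toCore
  have ht := hP.tau_pos
  have hF := St.F_mem hB hc hy
  have hFs := F_isSelfAdjoint hB z hc hy ht h.K_lo
  have h1 : S.tr (z.act * z.F y) ≤ P.r * S.tr z.act := by
    rw [← S.tr_smul]
    refine S.tr_mono ((le_iff (mul_mem hc.act_mem hF) (smul_real_mem _ hc.act_mem)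
      (mul_isSelfAdjoint hc.act_mem hF hc.act_proj.isSelfAdjoint hFs)
      (isSelfAdjoint_rsmul _ hc.act_proj.isSelfAdjoint)).2 fun χ => ?_)
    rw [ev_mul hc.act_mem hF hc.act_proj.isSelfAdjoint, ev_smul _ hc.act_mem]
    rcases ev_proj (χ := χ) hc.act_mem hc.act_proj with e | e
    · rw [e]; simp
    · rw [e, one_mul, mul_one]
      exact St.F_le hB hP hc hy hyE ht h.K_lo fun c hl => by linarith [(h.live_a c χ hl).1]
  have h2 : S.tr (1 - z.act) = 1 - S.tr z.act := by rw [S.tr_sub, tr_one]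
  have h3 := mul_nonneg hP.lam1_pos.le (gam_nonneg z hc ht h.K_lo)
  have h4 : P.lam2 * (S.tr (z.act * z.F y) + P.r * S.tr (1 - z.act)) ≤ P.lam2 * P.r :=
    mul_le_mul_of_nonneg_left (by rw [h2]; linarith) hP.lam2_pos.le
  have h5 := tr_act_phi_nonneg z hc P.kap (z.F y)
  rw [St.obj, mul_add P.lam1]
  linarith

variable (S) in
/-- The first state. -/
def init (r : ℕ) : St S r where
  act := 1
  live _ := 1
  fro _ := 0
  a _ := (r : ℝ) • 1
  B _ _ := 0
  loss := 0
  mB := 0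
  mF := 0
  beta := 0

lemma init_sup (r : ℕ) (c : Fin r) : (init S r).sup c = 1 := by simp [init, St.sup]

lemma init_K (r : ℕ) (y : Op H) (c : Fin r) (σ : Bool) :
    (init S r).K y c σ = (r : ℝ) • (1 : Op H) - sg σ • y := by
  rw [St.K, init_sup]
  simp [init]

omit [CompleteSpace H] in
lemma norm_sg_smul (σ : Bool) (y : Op H) : ‖sg σ • y‖ = ‖y‖ := by
  cases σ <;> simp [sg]

lemma init_K_lo (r : ℕ) (hy : IsSelfAdjoint y) (c : Fin r) (σ : Bool) :
    ((r : ℝ) - ‖y‖) • (1 : Op H) ≤ (init S r).K y c σ := by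
  have hs : IsSelfAdjoint (sg σ • y) := (IsSelfAdjoint.all _).smul hy
  have h := IsSelfAdjoint.le_algebraMap_norm_self (a := sg σ • y)
  rw [norm_sg_smul, Algebra.algebraMap_eq_smul_one] at h
  rw [init_K, sub_smul]
  exact sub_le_sub_left h _

lemma init_core (hP : P.Ok) (hB : Basics S) : (init S P.r).Core P := by
  have hr : (1000 : ℝ) ≤ P.r := by exact_mod_cast hP.r_big
  refine
    { act_mem := one_mem _
      act_proj := IsStarProjection.one _
      live_mem := fun _ => one_mem _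
      live_proj := fun _ => IsStarProjection.one _
      fro_mem := fun _ => zero_mem _
      fro_proj := fun _ => IsStarProjection.zero _
      live_act := fun _ => mul_one _
      fro_act := fun _ => mul_zero _
      fro_orth := fun _ _ _ => mul_zero _
      a_mem := fun _ => smul_real_mem _ (one_mem _)
      a_sa := fun _ => isSelfAdjoint_smul_one _
      a_ge := fun c χ => ?_
      fro_a := fun c χ hc => ?_
      B_mem := fun _ _ => zero_mem _
      B_nonneg := fun _ _ => le_rfl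
      B_sup := fun _ _ => by simp [init]
      live_B := fun c σ χ _ => ?_
      loss_mem := zero_mem _
      loss_sa := IsSelfAdjoint.zero _
      loss_nonneg := fun χ => by simp [init]
      loss_le := fun χ => ?_
      mB_nonneg := le_rfl
      mF_nonneg := le_rfl
      rest := by simp [init]
      budget := by simp [init] }
  · simp only [init]
    rw [ev_smul _ (one_mem _), ev_one]
    linarith
  · simp [init] at hc
  · simp only [init]
    rw [E_zero hB, ev_zero]
    norm_num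
  · simp only [init_sup, ev_one, Finset.sum_const, Finset.card_univ, Fintype.card_fin, nsmul_eq_mul,
      mul_one]
    simp [init]

/-- The resolvents of the first state: the expansion to second order. -/
lemma init_g (hP : P.Ok) (hB : Basics S) (hy : y ∈ S.M) (hys : IsSelfAdjoint y)
    (hyE : S.E y = 0) (hyn : ‖y‖ ≤ Real.sqrt P.r / 5) (c : Fin P.r) (σ : Bool) (χ : S.Chi) :
    (P.r : ℝ)⁻¹ ≤ S.ev χ (((init S P.r).side y c).g σ) ∧
      S.ev χ (((init S P.r).side y c).g σ) ≤ (P.r : ℝ)⁻¹ + 1 / (20 * P.r ^ 2) ∧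
      ‖(init S P.r).G y c σ‖ ≤ 5 / (4 * P.r) := by
  have hr : (1000 : ℝ) ≤ P.r := by exact_mod_cast hP.r_big
  have hr0 : (0 : ℝ) < P.r := by linarith
  have hsq : Real.sqrt P.r ≤ P.r := Real.sqrt_le_iff.2 ⟨hr0.le, by nlinarith⟩
  have hy2 : ‖y‖ ^ 2 ≤ P.r / 25 := by
    have := pow_le_pow_left₀ (norm_nonneg y) hyn 2
    rwa [div_pow, Real.sq_sqrt hr0.le, show (5 : ℝ) ^ 2 = 25 by norm_num] at this
  have ht : (0 : ℝ) < P.r - ‖y‖ := by linarith
  have hK := init_K_lo (S := S) P.r hys c σ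
  have hc := init_core hP hB
  have hn : ‖(init S P.r).G y c σ‖ ≤ 5 / (4 * P.r) := by
    refine (norm_inverse_le ht hK).trans ?_
    rw [inv_le_comm₀ ht (by positivity), inv_div]
    linarith
  refine ⟨?_, ?_, hn⟩
  · obtain ⟨h0, -, h1⟩ := St.ev_g hB hc hy ht hK χ
    rw [hc.ev_E_K hB hy hyE, init_sup, ev_one, mul_one, sub_self, add_zero] at h1
    simp only [init, E_zero hB, ev_zero, add_zero] at h1
    rw [ev_smul _ (one_mem _), ev_one, mul_one] at h1
    rw [inv_le_iff_one_le_mul₀ hr0]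
    exact h1
  · set G := (init S P.r).G y c σ with hG
    have hu := isUnit_of_le ht hK
    have e1 : (P.r : ℝ) • G - sg σ • (y * G) = 1 := by
      have := mul_inverse hu
      change (init S P.r).K y c σ * G = 1 at this
      rwa [init_K, sub_mul, smul_mul_assoc, one_mul, smul_mul_assoc] at this
    have e2 : (P.r : ℝ) • G - sg σ • (G * y) = 1 := by
      have := inverse_mul hu
      change G * (init S P.r).K y c σ = 1 at this
      rwa [init_K, mul_sub, mul_smul_comm, mul_one, mul_smul_comm] at this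
    have e : G = (P.r : ℝ)⁻¹ • (1 : Op H) + ((P.r : ℝ)⁻¹ ^ 2 * sg σ) • y +
        ((P.r : ℝ)⁻¹ ^ 2) • (y * G * y) := by
      have e3 : (P.r : ℝ) • (y * G) = y + sg σ • (y * G * y) := by
        have := congrArg (fun u => y * u) e2
        simp only [mul_sub, mul_smul_comm, mul_one, ← mul_assoc] at this
        exact sub_eq_iff_eq_add.1 this
      have e4 : y * G = (P.r : ℝ)⁻¹ • (y + sg σ • (y * G * y)) := by
        rw [← e3, inv_smul_smul₀ hr0.ne']
      calc G = (P.r : ℝ)⁻¹ • ((P.r : ℝ) • G) := (inv_smul_smul₀ hr0.ne' G).symm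
        _ = (P.r : ℝ)⁻¹ • (1 + sg σ • (y * G)) := by rw [sub_eq_iff_eq_add.1 e1]
        _ = _ := by
          conv_lhs => rw [e4]
          rw [smul_add (P.r : ℝ)⁻¹ (1 : Op H), smul_smul, smul_smul, smul_add, smul_smul,
            show (P.r : ℝ)⁻¹ * sg σ * (P.r : ℝ)⁻¹ * sg σ = (P.r : ℝ)⁻¹ ^ 2 by
              rw [show (P.r : ℝ)⁻¹ * sg σ * (P.r : ℝ)⁻¹ * sg σ
                = (P.r : ℝ)⁻¹ ^ 2 * (sg σ * sg σ) by ring, sg_mul_self, mul_one],
            show (P.r : ℝ)⁻¹ * sg σ * (P.r : ℝ)⁻¹ = (P.r : ℝ)⁻¹ ^ 2 * sg σ by ring, add_assoc]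
    have hGM : G ∈ S.M := hc.G_mem hy c σ
    have hm : y * G * y ∈ S.M := mul_mem (mul_mem hy hGM) hy
    show S.ev χ (S.E G) ≤ _
    rw [e, hB.E_add _ (add_mem (S.rsmul_mem_M _ (one_mem _)) (S.rsmul_mem_M _ hy)) _
        (S.rsmul_mem_M _ hm), hB.E_add _ (S.rsmul_mem_M _ (one_mem _)) _ (S.rsmul_mem_M _ hy),
      E_rsmul hB _ (one_mem _), E_rsmul hB _ hy, E_rsmul hB _ hm, hyE, smul_zero, add_zero,
      hB.E_self 1 (one_mem _), ev_add (smul_real_mem _ (one_mem _)) (smul_real_mem _ (hB.E_mem _ hm)),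
      ev_smul _ (one_mem _), ev_one, mul_one, ev_smul _ (hB.E_mem _ hm)]
    have h5 : S.ev χ (S.E (y * G * y)) ≤ 1 / 20 := by
      refine ((le_abs_self _).trans (abs_ev_le (hB.E_mem _ hm))).trans ?_
      refine (hB.E_norm _ hm).trans ((norm_mul_le _ _).trans ?_)
      refine (mul_le_mul_of_nonneg_right (norm_mul_le y G) (norm_nonneg y)).trans ?_
      calc ‖y‖ * ‖G‖ * ‖y‖ = ‖y‖ ^ 2 * ‖G‖ := by ring
        _ ≤ P.r / 25 * (5 / (4 * P.r)) := mul_le_mul hy2 hn (norm_nonneg _) (by positivity)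
        _ = 1 / 20 := by field_simp; norm_num
    have h6 := mul_le_mul_of_nonneg_left h5 (show 0 ≤ (P.r : ℝ)⁻¹ ^ 2 by positivity)
    rw [show (P.r : ℝ)⁻¹ ^ 2 * (1 / 20) = 1 / (20 * P.r ^ 2) by field_simp] at h6
    linarith

lemma init_fz (hP : P.Ok) (hB : Basics S) (hy : y ∈ S.M) (hys : IsSelfAdjoint y)
    (hyE : S.E y = 0) (hyn : ‖y‖ ≤ Real.sqrt P.r / 5) (c : Fin P.r) (χ : S.Chi) :
    9 / 10 ≤ S.ev χ ((init S P.r).side y c).fz := by
  have hr : (1000 : ℝ) ≤ P.r := by exact_mod_cast hP.r_big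
  have hr0 : (0 : ℝ) < P.r := by linarith
  have hc := init_core hP hB
  have hsq : Real.sqrt P.r ≤ P.r := Real.sqrt_le_iff.2 ⟨hr0.le, by nlinarith⟩
  have ht : (0 : ℝ) < P.r - ‖y‖ := by linarith
  have hxi : ∀ σ, S.ev χ (((init S P.r).side y c).xi σ) ≤ 1 / 20 := fun σ => by
    obtain ⟨h1, h2, -⟩ := init_g hP hB hy hys hyE hyn c σ χ
    have ea : S.ev χ ((init S P.r).a c) = P.r := by
      simp only [init]
      rw [ev_smul _ (one_mem _), ev_one, mul_one]
    rw [St.ev_xi hB hc hy ht (init_K_lo P.r hys c σ), ea]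
    set g := S.ev χ (((init S P.r).side y c).g σ)
    have hg : 0 < g := lt_of_lt_of_le (by positivity) h1
    have h3 : (20 * (P.r : ℝ) ^ 2) / (20 * P.r + 1) ≤ g⁻¹ := by
      rw [le_inv_comm₀ (by positivity) hg, inv_div]
      refine h2.trans (le_of_eq ?_)
      field_simp
    have h4 : (P.r : ℝ) - 1 / 20 ≤ 20 * P.r ^ 2 / (20 * P.r + 1) := by
      rw [le_div_iff₀ (by positivity)]
      nlinarith
    linarith
  rw [St.ev_fz hB hc hy]
  linarith [hxi false, hxi true]

lemma init_strict (hP : P.Ok) (hB : Basics S) (hy : y ∈ S.M) (hys : IsSelfAdjoint y)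
    (hyE : S.E y = 0) (hyn : ‖y‖ ≤ Real.sqrt P.r / 5) :
    (init S P.r).Strict P y ∧ ∀ χ : S.Chi, 9 / 10 ≤ S.ev χ ((init S P.r).F y) := by
  have hr : (1000 : ℝ) ≤ P.r := by exact_mod_cast hP.r_big
  have hr0 : (0 : ℝ) < P.r := by linarith
  have hc := init_core hP hB
  have hsq : Real.sqrt P.r ≤ P.r := Real.sqrt_le_iff.2 ⟨hr0.le, by nlinarith⟩
  have hfz := init_fz hP hB hy hys hyE hyn
  have hF : ∀ χ : S.Chi, 9 / 10 ≤ S.ev χ ((init S P.r).F y) := by
    intro χ
    rw [St.ev_F hB hc hy]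
    have hterm : ∀ c, 9 / 10 * (P.r : ℝ)⁻¹ ≤ S.ev χ ((init S P.r).live c) *
        (S.ev χ ((init S P.r).side y c).pot * S.ev χ ((init S P.r).side y c).fz) := fun c => by
      rw [St.ev_pot hc]
      simp only [init, ev_one, one_mul]
      rw [ev_smul _ (one_mem _), ev_one, mul_one]
      have h1 : (P.r : ℝ)⁻¹ ≤ (P.r : ℝ)⁻¹ + kB * ((P.r : ℝ)⁻¹ * (P.r : ℝ)⁻¹) := by
        rw [kB]; exact le_add_of_nonneg_right (by positivity)
      rw [mul_comm (9 / 10 : ℝ)]
      exact mul_le_mul h1 (hfz c χ) (by norm_num) (le_trans (by positivity) h1)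
    have hs := Finset.sum_le_sum fun c (_ : c ∈ Finset.univ) => hterm c
    have e : ∑ _c : Fin P.r, 9 / 10 * (P.r : ℝ)⁻¹ = 9 / 10 := by
      simp only [Finset.sum_const, Finset.card_univ, Fintype.card_fin, nsmul_eq_mul]
      field_simp
    rw [e] at hs
    have hl := hc.loss_nonneg χ
    linarith
  refine ⟨{ toCore := hc, K_lo := fun c σ => ?_, live_a := fun c χ _ => ?_,
            live_fz := fun c χ _ => ?_, act_F := fun χ _ => le_trans (by norm_num) (hF χ) }, hF⟩
  · refine le_trans ?_ (init_K_lo P.r hys c σ)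
    exact smul_le_smul_of_nonneg_right (by linarith [hP.tau_le]) zero_le_one
  · simp only [init]
    rw [ev_smul _ (one_mem _), ev_one, mul_one]
    refine ⟨by linarith, ?_⟩
    rw [le_div_iff₀ hP.c0_pos]
    linarith [hP.r_c0]
  · linarith [hfz c χ, hP.c0_le]

lemma init_obj (hP : P.Ok) (hB : Basics S) (hy : y ∈ S.M) (hys : IsSelfAdjoint y)
    (hyE : S.E y = 0) (hyn : ‖y‖ ≤ Real.sqrt P.r / 5) :
    (init S P.r).obj P y ≤ Real.exp (-(3 / 10) * P.kap) + 3 * P.lam1 := by
  have hr : (1000 : ℝ) ≤ P.r := by exact_mod_cast hP.r_big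
  have hr0 : (0 : ℝ) < P.r := by linarith
  have hc := init_core hP hB
  obtain ⟨hst, hF⟩ := init_strict hP hB hy hys hyE hyn
  have hFm := St.F_mem hB hc hy
  have hFs := F_isSelfAdjoint hB _ hc hy hP.tau_pos hst.K_lo
  have hF0 : 0 ≤ S.tr ((init S P.r).F y) :=
    S.tr_nonneg ((nonneg_iff hFm hFs).2 fun χ => le_trans (by norm_num) (hF χ))
  have h1 : S.tr (phi S P.kap ((init S P.r).F y)) ≤ Real.exp (-(3 / 10) * P.kap) := by
    rw [← mul_one (Real.exp _), ← tr_one S, ← S.tr_smul]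
    show S.tr (appA S (phiFun P.kap) ((init S P.r).F y)) ≤ _
    refine S.tr_mono ((le_iff (fnA_mem _) (smul_real_mem _ (one_mem _)) (fnA_isSelfAdjoint _)
      (isSelfAdjoint_smul_one _)).2 fun χ => ?_)
    show S.ev χ (appA S (phiFun P.kap) ((init S P.r).F y)) ≤ _
    rw [ev_appA, ev_smul _ (one_mem _), ev_one, mul_one]
    show Real.exp (-P.kap * (_ - 3 / 5)) ≤ _
    refine Real.exp_le_exp.2 ?_
    nlinarith [mul_le_mul_of_nonneg_left (hF χ) hP.kap_pos.le]
  have h2 : (init S P.r).gam P y ≤ 3 := by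
    have ht : ∀ c σ, S.tr ((init S P.r).sup c * (init S P.r).G y c σ) ≤ 5 / (4 * P.r) :=
      fun c σ => by
        rw [init_sup, one_mul]
        obtain h | h := isEmpty_or_nonempty S.Chi
        · refine le_trans ?_ (show (0 : ℝ) ≤ _ by positivity)
          have h1 : (1 : Op H) ≤ 0 := (le_iff (one_mem _) (zero_mem _) (IsSelfAdjoint.one _)
            (IsSelfAdjoint.zero _)).2 fun χ => h.elim χ
          have := S.tr_mono h1
          rw [tr_one, tr_zero] at this
          linarith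
        · exact (tr_le_norm S _).trans (init_g hP hB hy hys hyE hyn c σ (Classical.arbitrary _)).2.2
    calc (init S P.r).gam P y ≤ ∑ _c : Fin P.r, ∑ _σ : Bool, (5 / (4 * P.r) : ℝ) :=
          Finset.sum_le_sum fun c _ => Finset.sum_le_sum fun σ _ => ht c σ
      _ = 5 / 2 := by
          simp only [Finset.sum_const, Finset.card_univ, Fintype.card_fin, Fintype.card_bool,
            nsmul_eq_mul]
          push_cast
          field_simp
          norm_num
      _ ≤ 3 := by norm_num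
  have h3 := mul_le_mul_of_nonneg_left h2 hP.lam1_pos.le
  have h4 := mul_nonneg hP.lam2_pos.le hF0
  simp only [St.obj]
  simp only [init, one_mul, zero_add, zero_div, add_zero, sub_self, tr_zero, mul_zero] at h1 h2 h3 h4 ⊢
  linarith

/-- Steps and cleanups until the active mass is small. -/
lemma exists_end (h1 : CleanupStatement.{u}) (h2 : StepStatement.{u}) (hB : Basics S) (hP : P.Ok)
    (hy : y ∈ S.M) (hys : IsSelfAdjoint y) (hyE : S.E y = 0)
    (hyn : ‖y‖ ≤ Real.sqrt P.r / 5) {δ₁ : ℝ} (hδ : 0 < δ₁) :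
    ∃ z : St S P.r, z.Strict P y ∧ S.tr z.act ≤ δ₁ ∧
      z.obj P y ≤ Real.exp (-(3 / 10) * P.kap) + 3 * P.lam1 := by
  obtain ⟨γ, hγ, hstep⟩ := h2 H S P y δ₁ hB hP hy hys hyE hδ
  set U := Real.exp (-(3 / 10) * P.kap) + 3 * P.lam1
  have hrec : ∀ n : ℕ, ∃ z : St S P.r, z.Strict P y ∧ z.obj P y ≤ U ∧
      (S.tr z.act ≤ δ₁ ∨ z.obj P y ≤ U - n * γ) := by
    intro n
    induction n with
    | zero =>
      exact ⟨init S P.r, (init_strict hP hB hy hys hyE hyn).1, init_obj hP hB hy hys hyE hyn,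
        Or.inr (le_trans (init_obj hP hB hy hys hyE hyn) (by simp [U]))⟩
    | succ n ih =>
      obtain ⟨z, hz, hzU, hor⟩ := ih
      by_cases hact : S.tr z.act ≤ δ₁
      · exact ⟨z, hz, hzU, Or.inl hact⟩
      · obtain ⟨z', hz', hobj'⟩ := hstep z hz (not_le.1 hact)
        obtain ⟨w, hw, hobjw⟩ := h1 H S P y z' hB hP hy hys hyE hz'
        have hn := hor.resolve_left hact
        refine ⟨w, hw, by linarith, Or.inr ?_⟩
        push_cast
        linarith
  obtain ⟨n, hn⟩ := exists_nat_gt ((U + P.lam2 * P.r) / γ)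
  obtain ⟨z, hz, hzU, hor⟩ := hrec n
  refine ⟨z, hz, hor.resolve_right fun hle => ?_, hzU⟩
  have hge := obj_ge hB hP hy hyE z hz
  have h3 : 0 ≤ P.lam1 * (z.beta / P.tau ^ 2) := by
    refine mul_nonneg hP.lam1_pos.le (div_nonneg ?_ (sq_nonneg _))
    have hs : 0 ≤ ∑ c, ∑ σ, S.tr (z.B c σ) := Finset.sum_nonneg fun c _ =>
      Finset.sum_nonneg fun σ _ => S.tr_nonneg (hz.B_nonneg c σ)
    linarith [hz.budget, hz.mB_nonneg]
  rw [div_lt_iff₀ hγ] at hn
  linarith [hz.mF_nonneg]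

/-- At the end the frozen points carry `± y` below `500` plus the slack. -/
lemma frozen_bound {z : St S P.r} (h : z.Core P) {t : ℝ} (ht : 0 ≤ t) (c : Fin P.r) (σ : Bool)
    (hK : t • (1 : Op H) ≤ z.K y c σ) :
    sg σ • (z.fro c * y * z.fro c) ≤ (500 : ℝ) • z.fro c + z.fro c * z.B c σ * z.fro c := by
  have hp := h.fro_proj c
  have hfs : z.fro c * z.sup c = z.fro c := by
    rw [St.sup, mul_add, S.comm _ (h.fro_mem c) _ (h.live_mem c), h.live_mul_fro,
      hp.isIdempotentElem.eq, zero_add]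
  have hsf : z.sup c * z.fro c = z.fro c := by
    rw [S.comm _ (h.sup_mem c) _ (h.fro_mem c), hfs]
  have h0 : 0 ≤ z.K y c σ := le_trans (smul_nonneg ht zero_le_one) hK
  have h1 := star_left_conjugate_nonneg h0 (z.fro c)
  rw [hp.isSelfAdjoint.star_eq] at h1
  have e : z.fro c * z.K y c σ * z.fro c = z.a c * z.fro c -
      sg σ • (z.fro c * y * z.fro c) + z.fro c * z.B c σ * z.fro c := by
    conv_lhs => rw [← hfs, mul_assoc (z.fro c), h.sup_mul_K]
    rw [mul_add, add_mul, mul_sub, sub_mul, mul_smul_comm, smul_mul_assoc, hfs]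
    congr 2
    · rw [← mul_assoc, S.comm _ (h.fro_mem c) _ (h.a_mem c), mul_assoc (z.a c), hfs, mul_assoc,
        hp.isIdempotentElem.eq]
    · congr 1
      rw [← mul_assoc, ← mul_assoc, hfs, mul_assoc, hsf]
  rw [e, sub_add_eq_add_sub, sub_nonneg] at h1
  refine h1.trans (add_le_add ?_ le_rfl)
  refine (le_iff (mul_mem (h.a_mem c) (h.fro_mem c)) (smul_real_mem _ (h.fro_mem c))
    (mul_isSelfAdjoint (h.a_mem c) (h.fro_mem c) (h.a_sa c) hp.isSelfAdjoint)
    (isSelfAdjoint_rsmul _ hp.isSelfAdjoint)).2 fun χ => ?_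
  rw [ev_mul (h.a_mem c) (h.fro_mem c) (h.a_sa c), ev_smul _ (h.fro_mem c)]
  rcases h.ev_fro c χ with e | e
  · rw [e]; simp
  · rw [e, mul_one, mul_one]; exact h.fro_a c χ e

/-- The parameters for `r` colours and error `d`. -/
def par (r : ℕ) (d : ℝ) : Par where
  r := r
  c0 := 1 / (r : ℝ) ^ 3
  tau := Real.sqrt d / 64
  lam1 := d / 48
  lam2 := d / (16 * r)
  kap := max 1 (Real.log (16 / d) / (3 / 10))

lemma par_ok {r : ℕ} {d : ℝ} (hr : 1000 ≤ r) (hd : 0 < d) (hd1 : d ≤ 1) : (par r d).Ok := by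
  have hr' : (1000 : ℝ) ≤ r := by exact_mod_cast hr
  have hr0 : (0 : ℝ) < r := by linarith
  refine ⟨hr, ?_, ?_, ?_, ?_, ?_, ?_, ?_, ?_⟩ <;> simp only [par]
  · positivity
  · refine one_div_le_one_div_of_le (by norm_num) ?_
    nlinarith [mul_le_mul hr' hr' (by norm_num) hr0.le]
  · rw [mul_one_div, div_le_iff₀ (by positivity), one_div_mul_eq_div, le_div_iff₀ (by norm_num)]
    nlinarith [mul_le_mul hr' hr' (by norm_num) hr0.le]
  · positivity
  · have : Real.sqrt d ≤ 1 := Real.sqrt_le_one.2 hd1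
    linarith
  · positivity
  · positivity
  · positivity

end Walk

open Walk in
/-- The walk ends with frozen points covering almost everything. -/
theorem walk (h1 : CleanupStatement.{u}) (h2 : StepStatement.{u}) : WalkStatement.{u} := by
  intro H _ _ _ S r y δ hB hr hy hys hyE hyn hδ
  set d := min δ 1 with hd
  have hd0 : 0 < d := lt_min hδ one_pos
  have hP := par_ok hr hd0 (min_le_right _ _)
  obtain ⟨z, hz, hact, hobj⟩ := exists_end h1 h2 hB hP (P := par r d) hy hys hyE hyn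
    (δ₁ := d / 4) (by positivity)
  refine ⟨z.fro, z.B, fun c => ⟨hz.fro_mem c, hz.fro_proj c⟩, hz.fro_orth,
    fun c σ => ⟨hz.B_mem c σ, hz.B_nonneg c σ⟩,
    fun c σ => frozen_bound hz.toCore hP.tau_pos.le c σ (hz.K_lo c σ), ?_⟩
  have hr0 : (0 : ℝ) < r := by
    have : (1000 : ℝ) ≤ r := by exact_mod_cast hr
    linarith
  have hk : Real.exp (-(3 / 10) * (par r d).kap) ≤ d / 16 := by
    rw [← Real.exp_log (show 0 < d / 16 by positivity), Real.exp_le_exp,
      show d / 16 = (16 / d)⁻¹ by rw [inv_div], Real.log_inv]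
    have := le_max_right (1 : ℝ) (Real.log (16 / d) / (3 / 10))
    simp only [par]
    linarith
  have hge := obj_ge hB hP hy hyE z hz
  have hs : 0 ≤ ∑ c, ∑ σ, S.tr (z.B c σ) := Finset.sum_nonneg fun c _ =>
    Finset.sum_nonneg fun σ _ => S.tr_nonneg (hz.B_nonneg c σ)
  have hrest := hz.rest
  have hbud := hz.budget
  have hmF := hz.mF_nonneg
  have hmB := hz.mB_nonneg
  have e1 : (par r d).lam2 * (par r d).r = d / 16 := by simp only [par]; field_simp
  have e2 : (par r d).lam1 * (z.beta / (par r d).tau ^ 2) = 4096 / 48 * z.beta := by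
    simp only [par]
    rw [div_pow, Real.sq_sqrt hd0.le]
    field_simp
    norm_num
  have e3 : 3 * (par r d).lam1 = d / 16 := by simp only [par]; ring
  rw [e1, e2] at hge
  have hdδ : d ≤ δ := min_le_left _ _
  show S.tr (1 - ∑ c : Fin (par r d).r, z.fro c) +
    ∑ c : Fin (par r d).r, ∑ σ, S.tr (z.B c σ) ≤ δ
  linarith

end Vale.Agent.P078.Tr.Iter
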