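import Vale.Agent.P078.Tr.Iter.Step.Main

/-!
# Part Step of the iteration
-/

open scoped ComplexOrder InnerProductSpace

noncomputable section

namespace Vale.Agent.P078.Tr.Iter

universe u

open Tracial

/-- While the active mass is not small, a step lowers the objective by a fixed amount. -/
theorem step (hcov : CovStatement.{u}) (hdr : DriftStatement.{u}) (hExp : ExpandStatement.{u}) :
    StepStatement.{u} := by
  intro H _ _ _ S P y δ₁ hB hP hy hys hyE hδ
  obtain ⟨C, hC, hE⟩ := hExp P hP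
  have hK := Par.errStep_nonneg hP hC
  have hc0 := hP.c0_pos
  have hlam2 := hP.lam2_pos
  have htau := hP.tau_pos
  have hkap := hP.kap_pos
  have hlam1 := hP.lam1_pos
  have herr3 : 0 ≤ P.err3 C := by
    have := P.err1_nonneg hP hC
    have := P.err2_nonneg hP
    have := P.dMax_pos hP
    have := P.cLin_nonneg hP
    unfold Par.err3; positivity
  have hdMax := P.dMax_pos hP
  set γ₀ := P.lam2 * P.c0 * δ₁ / 32 with hγ₀def
  have hγ₀ : 0 < γ₀ := by positivity
  set t := min 1 (min (1 / (P.kap * P.err3 C + 1))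
    (min (P.tau / (2 * (P.dMax + 1))) (γ₀ / (P.errStep C + 1)))) with htdef
  have ht : 0 < t := by
    refine lt_min one_pos (lt_min ?_ (lt_min ?_ ?_)) <;> positivity
  have ht1 : t ≤ 1 := min_le_left _ _
  have hta : t * (P.kap * P.err3 C + 1) ≤ 1 :=
    (le_div_iff₀ (by positivity)).1 ((min_le_right _ _).trans (min_le_left _ _))
  have htb : t * (2 * (P.dMax + 1)) ≤ P.tau :=
    (le_div_iff₀ (by positivity)).1
      ((min_le_right _ _).trans ((min_le_right _ _).trans (min_le_left _ _)))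
  have htc : t * (P.errStep C + 1) ≤ γ₀ :=
    (le_div_iff₀ (by positivity)).1
      ((min_le_right _ _).trans ((min_le_right _ _).trans (min_le_right _ _)))
  have ht4 : t ^ 4 ≤ t := pow_le_of_le_one ht.le ht1 (by norm_num)
  have ht3 : P.kap * (t ^ 4 * P.err3 C) ≤ 1 := by
    have := mul_le_mul_of_nonneg_right ht4 (mul_nonneg hkap.le herr3)
    linarith
  have htd : t ^ 4 * P.dMax ≤ P.tau / 2 := by
    have := mul_le_mul_of_nonneg_right ht4 hdMax.le
    linarith
  refine ⟨t ^ 10 * (P.lam2 * P.c0 * δ₁ / 16), by positivity, fun z hz hact => ?_⟩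
  have hrow := fun c => hz.rowMap (c := c) hB hP hy
  choose R hR using hrow
  have hdrift := fun c => hdr H S (z.side y c) P.c0 (z.wt y) hB hP.c0_pos
    (hz.valid (c := c) hB hP hy hyE) hz.wt_asa.1
    ((nonneg_iff hz.wt_asa.1 hz.wt_asa.2).2 fun χ => (hz.wt_bounds hP χ).1)
  choose Φd wd Cd hΦd hwd hdr' using hdrift
  have hgamF := fun c σ => hz.gamForm (c := c) hB hP hy σ
  choose Γ hΓ0 hΓeval hΓbound using hgamF
  have hden : 0 < (∑ c, |Cd c|) + P.lam2 * P.c0 / 16 + 4 * P.kap ^ 2 + 4 * P.r * P.lam1 + 1 := by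
    have : 0 ≤ ∑ c, |Cd c| := Finset.sum_nonneg fun c _ => abs_nonneg _
    positivity
  set ρ := γ₀ / ((∑ c, |Cd c|) + P.lam2 * P.c0 / 16 + 4 * P.kap ^ 2 + 4 * P.r * P.lam1 + 1)
    with hρdef
  have hρ : 0 < ρ := div_pos hγ₀ hden
  have hρd : ρ * ((∑ c, |Cd c|) + P.lam2 * P.c0 / 16 + 4 * P.kap ^ 2 + 4 * P.r * P.lam1 + 1) = γ₀ :=
    div_mul_cancel₀ _ hden.ne'
  set Φs := (List.finRange P.r).flatMap fun c =>
    (Φd c ++ [Γ c false, Γ c true]).map (Prod.mk c) with hΦs
  set ws := (List.finRange P.r).flatMap fun c => (wd c).map (Prod.mk c) with hws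
  obtain ⟨D, n, f, hD, hf, hsq, hres, hforms, hwts, hcount⟩ :=
    hcov H S P.r R z.act z.live (fun c => (z.side y c).eps) (P.c0 ^ 2) ρ Φs ws hB
      (pow_pos hc0 2) hρ hz.act_mem hz.act_proj
      (fun c => ⟨hz.live_mem c, hz.live_proj c, (hz.eps_bounds hB hP hy hyE).1.1,
        (hz.eps_bounds hB hP hy hyE).2.1, (hz.eps_bounds hB hP hy hyE).2.2⟩)
      (fun c b hb => ⟨by
        rw [hR c b hb, Side.row, ← mul_assoc]
        show z.act * z.live c * _ = _
        rw [hz.live_act]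
        rfl, fun hs => by
        rw [hR c b hb]
        exact (hz.row_props hB hP hy ⟨hb, hs⟩).1.2⟩)
      (fun p hp b hb => by
        obtain ⟨c, -, hp⟩ := List.mem_flatMap.1 hp
        obtain ⟨Φ, hΦ, rfl⟩ := List.mem_map.1 hp
        rcases List.mem_append.1 hΦ with h | h
        · exact hΦd c Φ h b hb
        · rcases List.mem_cons.1 h with rfl | h
          · exact hΓ0 c false b hb
          · rw [List.mem_singleton.1 h]
            exact hΓ0 c true b hb)
      (fun p hp => by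
        obtain ⟨c, -, hp⟩ := List.mem_flatMap.1 hp
        obtain ⟨w, hw, rfl⟩ := List.mem_map.1 hp
        exact hwd c w hw)
  have hfa : ∀ j c, Asa S (f j c) := fun j c => ⟨(hf j c).1, (hf j c).2.1⟩
  have hDa : ∀ c, Asa S (D c) ∧ 0 ≤ D c ∧ D c ≤ z.live c := fun c =>
    ⟨⟨(hD c).1, IsSelfAdjoint.of_nonneg (hD c).2.1⟩, (hD c).2.1, (hD c).2.2⟩
  have hF : Fields z f := by
    refine ⟨hfa, fun j c => (hf j c).2.2, fun c χ => ?_⟩
    have hs : Asa S (∑ j, f j c * f j c) := Asa.sum fun j _ => (hfa j c).mul (hfa j c)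
    have h := ev_le (χ := χ) hs.1 (smul_real_mem 2 (one_mem _)) hs.2 (hsq c)
    rw [ev_smul _ (one_mem _), ev_one, mul_one,
      ev_sum _ _ fun j _ => ((hfa j c).mul (hfa j c)).1] at h
    refine le_trans (le_of_eq (Finset.sum_congr rfl fun j _ => ?_)) h
    rw [Asa.ev_mul (hfa j c) (hfa j c), sq]
  have hres' : ∑ j, S.tr ((∑ c, (z.side y c).first (z.a c * f j c)) *
      (∑ c, (z.side y c).first (z.a c * f j c))) ≤ ρ := by
    refine le_trans (le_of_eq (Finset.sum_congr rfl fun j _ => ?_)) hres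
    simp only [fun c => hR c (f j c) (hf j c).1, hz.row_eq]
  have hgam : ∀ c σ, ∑ j, S.tr (z.sup c * (z.G y c σ * (z.a c * f j c) * z.G y c σ *
      (z.a c * f j c) * z.G y c σ)) ≤
      S.tr (z.sup c * (z.G y c σ * (z.side y c).mu (D c) * z.G y c σ)) + 2 * ρ := by
    intro c σ
    have hmem : (c, Γ c σ) ∈ Φs := by
      refine List.mem_flatMap.2 ⟨c, List.mem_finRange c, List.mem_map.2 ⟨Γ c σ, ?_, rfl⟩⟩
      cases σ <;> simp
    obtain ⟨P₀, hP₀⟩ := hΓbound c σ (D c) (hDa c).1 (hDa c).2.1 (hDa c).2.2 ρ hρ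
    obtain ⟨Q, hQ, hQle⟩ := hforms _ hmem P₀
    have h2 := hP₀ Q hQ
    calc _ = ∑ j, (Γ c σ).eval (f j c) := Finset.sum_congr rfl fun j _ =>
          (hΓeval c σ _ (hfa j c) (hf j c).2.2).symm
      _ ≤ ∑ i, (Γ c σ).eval (CFC.sqrt (D c) * Q.p i) + ρ := hQle
      _ ≤ _ := by linarith
  have hd : ∀ c, S.tr (z.wt y * ((z.side y c).e *
      (D c * ((z.side y c).p * (z.side y c).p) * (z.side y c).fz))) - Cd c * ρ ≤
      S.tr (z.wt y * (z.side y c).second (D c) fun j => f j c) := fun c => by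
    refine hdr' c (D c) n (fun j => f j c) ρ hρ.le (hD c).1 (hD c).2.1 (hD c).2.2
      (fun j => hf j c) (fun Φ hΦ P₀ => ?_) (fun w hw => ?_)
    · exact hforms (c, Φ) (List.mem_flatMap.2 ⟨c, List.mem_finRange c,
        List.mem_map.2 ⟨Φ, List.mem_append_left _ hΦ, rfl⟩⟩) P₀
    · exact hwts (c, w) (List.mem_flatMap.2 ⟨c, List.mem_finRange c,
        List.mem_map.2 ⟨w, hw, rfl⟩⟩)
  obtain ⟨z', hz', hobj⟩ := hz.avg_obj_le hB hP hy hyE hC ht ht1 ht3 htd
    (fun d hd => hE H S y z d hB hy hys hyE hz hd) hDa hF hres' hgam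
  refine ⟨z', hz', ?_⟩
  have hge := hz.drift_ge hB hP hy hyE hDa hcount
  have hsum := Finset.sum_le_sum fun c (_ : c ∈ Finset.univ) => hd c
  rw [Finset.sum_sub_distrib, ← Finset.sum_mul] at hsum
  have habs : (∑ c, Cd c) * ρ ≤ (∑ c, |Cd c|) * ρ :=
    mul_le_mul_of_nonneg_right (Finset.sum_le_sum fun c _ => le_abs_self _) hρ.le
  have t10 : 0 ≤ t ^ 10 := by positivity
  have hδ' : P.lam2 * P.c0 / 16 * (4 * δ₁) ≤ P.lam2 * P.c0 / 16 * (4 * S.tr z.act) :=
    mul_le_mul_of_nonneg_left (by linarith) (by positivity)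
  have key : P.lam2 * P.c0 * δ₁ / 16 + t * P.errStep C +
      (4 * P.kap ^ 2 + 4 * P.r * P.lam1) * ρ ≤
      ∑ c, S.tr (z.wt y * (z.side y c).second (D c) fun j => f j c) := by
    have hKt : t * P.errStep C ≤ γ₀ := by linarith
    have h4 : γ₀ = P.lam2 * P.c0 * δ₁ / 32 := hγ₀def
    linarith
  have := mul_le_mul_of_nonneg_left key t10
  linarith [show t ^ 11 * P.errStep C = t ^ 10 * (t * P.errStep C) by ring]

end Vale.Agent.P078.Tr.Iter
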