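import Vale.Agent.P078.Tr.Iter.Inverse

/-!
# Iteration: functions, cuts and inverses at characters
-/

open scoped ComplexOrder InnerProductSpace

noncomputable section

namespace Vale.Agent.P078.Tr.Iter

universe u

variable {H : Type u} [NormedAddCommGroup H] [InnerProductSpace ℂ H] [CompleteSpace H]
  {S : Tracial H}

open Tracial

variable (S) in
/-- The element of `A` with the given values at characters. -/
def fnA (φ : C(S.Chi, ℝ)) : Op H :=
  (((gelfandStarTransform S.Alg).symm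
    ⟨fun χ => ((φ χ : ℝ) : ℂ), Complex.continuous_ofReal.comp φ.continuous⟩ : S.Alg) : Op H)

lemma fnA_mem (φ : C(S.Chi, ℝ)) : fnA S φ ∈ S.A := Subtype.prop _

lemma evC_fnA (φ : C(S.Chi, ℝ)) (χ : S.Chi) : S.evC χ (fnA S φ) = φ χ := by
  rw [evC_of_mem (fnA_mem φ)]
  exact congrArg (fun g : C(S.Chi, ℂ) => g χ) ((gelfandStarTransform S.Alg).apply_symm_apply _)

@[simp] lemma ev_fnA (φ : C(S.Chi, ℝ)) (χ : S.Chi) : S.ev χ (fnA S φ) = φ χ := by
  rw [Tracial.ev, evC_fnA]; simp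

lemma fnA_isSelfAdjoint (φ : C(S.Chi, ℝ)) : IsSelfAdjoint (fnA S φ) := by
  refine Tracial.isSelfAdjoint_coe.2 ?_
  rw [IsSelfAdjoint, ← map_star]
  congr 1
  ext χ
  exact Complex.conj_ofReal _

variable (S) in
lemma continuous_ev (x : Op H) : Continuous fun χ : S.Chi => S.ev χ x := by
  by_cases h : x ∈ S.A
  · simp only [Tracial.ev, evC_of_mem h]
    exact Complex.continuous_re.comp (gelfandStarTransform S.Alg ⟨x, h⟩).continuous
  · have e : (fun χ : S.Chi => S.ev χ x) = fun _ => 0 := by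
      funext χ; simp [Tracial.ev, Tracial.evC, h]
    rw [e]
    exact continuous_const

variable (S) in
/-- Apply a continuous function to an element of `A`. -/
def appA (g : C(ℝ, ℝ)) (x : Op H) : Op H := fnA S (g.comp ⟨_, continuous_ev S x⟩)

@[simp] lemma ev_appA (g : C(ℝ, ℝ)) (x : Op H) (χ : S.Chi) :
    S.ev χ (appA S g x) = g (S.ev χ x) := by simp [appA]

variable {χ : S.Chi} {x y : Op H}

lemma ev_nonneg (hx : x ∈ S.A) (h : 0 ≤ x) : 0 ≤ S.ev χ x :=
  (nonneg_iff hx (IsSelfAdjoint.of_nonneg h)).1 h χ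

lemma ev_le (hx : x ∈ S.A) (hy : y ∈ S.A) (_hs : IsSelfAdjoint x) (h : x ≤ y) :
    S.ev χ x ≤ S.ev χ y := by
  have := ev_nonneg (χ := χ) (sub_mem hy hx) (sub_nonneg.2 h)
  rw [ev_sub hy hx] at this
  linarith

lemma ev_inverse (hx : x ∈ S.A) (hs : IsSelfAdjoint x) (hu : IsUnit x) :
    S.ev χ (Ring.inverse x) = (S.ev χ x)⁻¹ := by
  have h := ev_mul (χ := χ) hx (S.inverse_mem_A hx) hs
  rw [mul_inverse hu, ev_one] at h
  exact eq_inv_of_mul_eq_one_right h.symm

lemma ev_abs (hx : x ∈ S.A) (hs : IsSelfAdjoint x) : S.ev χ (CFC.abs x) = |S.ev χ x| := by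
  have h := congrArg (S.ev χ) (CFC.abs_mul_abs x)
  rw [hs.star_eq, ev_mul (S.abs_mem_A hx) (S.abs_mem_A hx) (IsSelfAdjoint.of_nonneg (CFC.abs_nonneg x)),
    ev_mul hx hx hs] at h
  have h0 := ev_nonneg (χ := χ) (S.abs_mem_A hx) (CFC.abs_nonneg x)
  rw [← Real.sqrt_mul_self h0, h, Real.sqrt_mul_self_eq_abs]

lemma opMax_isSelfAdjoint {x y : Op H} (hs : IsSelfAdjoint x) (ht : IsSelfAdjoint y) :
    IsSelfAdjoint (opMax x y) :=
  (IsSelfAdjoint.all _).smul ((hs.add ht).add (IsSelfAdjoint.of_nonneg (CFC.abs_nonneg _)))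

lemma ev_opMax (hx : x ∈ S.A) (hy : y ∈ S.A) (hs : IsSelfAdjoint x) (ht : IsSelfAdjoint y) :
    S.ev χ (opMax x y) = max (S.ev χ x) (S.ev χ y) := by
  have hd := sub_mem hx hy
  rw [opMax, ev_smul _ (add_mem (add_mem hx hy) (S.abs_mem_A hd)),
    ev_add (add_mem hx hy) (S.abs_mem_A hd), ev_add hx hy, ev_abs hd (hs.sub ht), ev_sub hx hy]
  rcases le_total (S.ev χ x) (S.ev χ y) with h | h
  · rw [max_eq_right h, abs_of_nonpos (sub_nonpos.2 h)]; ring
  · rw [max_eq_left h, abs_of_nonneg (sub_nonneg.2 h)]; ring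

lemma ev_proj {e : Op H} (he : e ∈ S.A) (hp : IsStarProjection e) :
    S.ev χ e = 0 ∨ S.ev χ e = 1 := by
  have h := congrArg (S.ev χ) hp.isIdempotentElem.eq
  rw [ev_mul he he hp.isSelfAdjoint] at h
  exact IsIdempotentElem.iff_eq_zero_or_one.1 h

lemma ev_cut_eq_zero (hx : x ∈ S.A) (hs : IsSelfAdjoint x) {t : ℝ}
    (h : S.ev χ (cut x t) = 0) : S.ev χ x ≤ t := by
  have hc := S.cut_mem_A hx t
  have hq : IsSelfAdjoint (1 - cut x t) := (isStarProjection_cut x t).one_sub.isSelfAdjoint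
  have hqm : 1 - cut x t ∈ S.A := sub_mem (one_mem _) hc
  have hd : x - t • (1 : Op H) ∈ S.A := sub_mem hx (smul_real_mem t (one_mem _))
  have hm : (1 - cut x t) * (x - t • (1 : Op H)) * (1 - cut x t) ∈ S.A :=
    mul_mem (mul_mem hqm hd) hqm
  have := ev_nonneg (χ := χ) (neg_mem hm) (neg_nonneg.2 (le_of_cut hs t))
  rw [ev_neg hm, mul_assoc, ev_mul hqm (mul_mem hd hqm) hq,
    ev_mul hd hqm (hs.sub (isSelfAdjoint_smul_one t)), ev_sub (one_mem _) hc, h,
    ev_sub hx (smul_real_mem t (one_mem _)), ev_smul _ (one_mem _), ev_one] at this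
  linarith

lemma ev_cut_eq_one (hx : x ∈ S.A) (hs : IsSelfAdjoint x) {t : ℝ}
    (h : S.ev χ (cut x t) = 1) : t ≤ S.ev χ x := by
  by_contra hlt
  push Not at hlt
  obtain ⟨s, hs1, hs2⟩ := exists_between hlt
  have hh := S.hinge_mem_A hx s
  have h1 := ev_le (χ := χ) (smul_real_mem (t - s) (S.cut_mem_A hx t)) hh
    ((IsSelfAdjoint.all _).smul (isStarProjection_cut x t).isSelfAdjoint) (cut_le_hinge hs hs2.le)
  rw [ev_smul _ (S.cut_mem_A hx t), h, mul_one] at h1
  have h2 : S.ev χ (hinge x s) = 0 := by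
    have h3 := congrArg (S.ev χ) (hinge_sub_add hs s)
    have hn := S.cfc_mem_A hx fun z : ℝ => max (s - z) 0
    rw [ev_sub hh hn, ev_sub hx (smul_real_mem s (one_mem _)), ev_smul _ (one_mem _), ev_one] at h3
    have h4 : S.ev χ (hinge x s) * S.ev χ (cfc (fun z : ℝ => max (s - z) 0) x) = 0 := by
      rw [← ev_mul hh hn (hinge_isSelfAdjoint x s), hinge, ← cfc_mul _ _ x]
      have : ∀ z ∈ spectrum ℝ x, max (z - s) 0 * max (s - z) 0 = 0 := fun z _ => by
        rcases le_total z s with hz | hz <;> simp [hz]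
      rw [cfc_congr this, cfc_const_zero, ev_zero]
    rcases mul_eq_zero.1 h4 with h4 | h4
    · exact h4
    · have := ev_nonneg (χ := χ) hh (hinge_nonneg x s)
      linarith
  linarith

end Vale.Agent.P078.Tr.Iter
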