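import Vale.Agent.P078.Tr.Iter.State

/-!
# Iteration: elementary facts about a state
-/

open scoped ComplexOrder InnerProductSpace

noncomputable section

namespace Vale.Agent.P078.Tr.Iter

universe u

variable {H : Type u} [NormedAddCommGroup H] [InnerProductSpace ℂ H] [CompleteSpace H]
  {S : Tracial H}

open Tracial

variable (S) in
lemma isSelfAdjoint_rsmul (c : ℝ) {x : Op H} (hx : IsSelfAdjoint x) : IsSelfAdjoint (c • x) :=
  (IsSelfAdjoint.all c).smul hx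

lemma E_two_sided (hB : Basics S) {a b x : Op H} (ha : a ∈ S.A) (hb : b ∈ S.A) (hx : x ∈ S.M) :
    S.E (a * x * b) = a * b * S.E x := by
  rw [mul_assoc, (hB.E_mul a ha _ (mul_mem hx (S.le b hb))).1, (hB.E_mul b hb x hx).2, mul_assoc]

namespace St

variable {P : Par} {y : Op H} {z : St S P.r} {c : Fin P.r} {σ : Bool} {χ : S.Chi}

namespace Core

variable (h : z.Core P)

include h

lemma ev_live (c : Fin P.r) (χ : S.Chi) : S.ev χ (z.live c) = 0 ∨ S.ev χ (z.live c) = 1 :=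
  ev_proj (h.live_mem c) (h.live_proj c)

lemma ev_fro (c : Fin P.r) (χ : S.Chi) : S.ev χ (z.fro c) = 0 ∨ S.ev χ (z.fro c) = 1 :=
  ev_proj (h.fro_mem c) (h.fro_proj c)

lemma live_mul_fro (c c' : Fin P.r) : z.live c * z.fro c' = 0 := by
  rw [← h.live_act c, S.comm _ h.act_mem _ (h.live_mem c), mul_assoc, h.fro_act, mul_zero]

lemma sup_mem (c : Fin P.r) : z.sup c ∈ S.A := add_mem (h.live_mem c) (h.fro_mem c)

lemma sup_memM (c : Fin P.r) : z.sup c ∈ S.M := S.le _ (h.sup_mem c)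

lemma sup_proj (c : Fin P.r) : IsStarProjection (z.sup c) := by
  refine ⟨?_, (h.live_proj c).isSelfAdjoint.add (h.fro_proj c).isSelfAdjoint⟩
  show (z.live c + z.fro c) * (z.live c + z.fro c) = z.live c + z.fro c
  rw [add_mul, mul_add, mul_add, h.live_mul_fro, S.comm _ (h.fro_mem c) _ (h.live_mem c),
    h.live_mul_fro, (h.live_proj c).isIdempotentElem.eq, (h.fro_proj c).isIdempotentElem.eq,
    add_zero, zero_add]

lemma sup_mul_self (c : Fin P.r) : z.sup c * z.sup c = z.sup c :=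
  (h.sup_proj c).isIdempotentElem.eq

lemma sup_mul_live (c : Fin P.r) : z.sup c * z.live c = z.live c := by
  rw [sup, add_mul, (h.live_proj c).isIdempotentElem.eq, S.comm _ (h.fro_mem c) _ (h.live_mem c),
    h.live_mul_fro, add_zero]

lemma ev_sup (c : Fin P.r) (χ : S.Chi) :
    S.ev χ (z.sup c) = S.ev χ (z.live c) + S.ev χ (z.fro c) :=
  ev_add (h.live_mem c) (h.fro_mem c)

lemma ev_sup_of_live (hl : S.ev χ (z.live c) = 1) : S.ev χ (z.sup c) = 1 := by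
  have e := congrArg (S.ev χ) (h.sup_mul_live c)
  rw [ev_mul (h.sup_mem c) (h.live_mem c) (h.sup_proj c).isSelfAdjoint, hl, mul_one] at e
  exact e

lemma ev_sup_le (c : Fin P.r) (χ : S.Chi) : 0 ≤ S.ev χ (z.sup c) ∧ S.ev χ (z.sup c) ≤ 1 := by
  rcases ev_proj (χ := χ) (h.sup_mem c) (h.sup_proj c) with e | e <;> rw [e] <;> norm_num

lemma K_mem (hy : y ∈ S.M) (c : Fin P.r) (σ : Bool) : z.K y c σ ∈ S.M :=
  add_mem (add_mem (sub_mem (mul_mem (S.le _ (h.a_mem c)) (h.sup_memM c))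
    (S.rsmul_mem_M _ (mul_mem (mul_mem (h.sup_memM c) hy) (h.sup_memM c)))) (h.B_mem c σ))
    (sub_mem (one_mem _) (h.sup_memM c))

lemma sup_mul_K (c : Fin P.r) (σ : Bool) :
    z.sup c * z.K y c σ =
      z.a c * z.sup c - sg σ • (z.sup c * y * z.sup c) + z.B c σ := by
  have eB : z.sup c * z.B c σ = z.B c σ := by
    conv_lhs => rw [← h.B_sup c σ]
    rw [← mul_assoc, ← mul_assoc, h.sup_mul_self, h.B_sup]
  rw [St.K, mul_add, mul_add, mul_sub, mul_sub, mul_one, h.sup_mul_self, sub_self, add_zero, eB,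
    ← mul_assoc, S.comm _ (h.sup_mem c) _ (h.a_mem c), mul_assoc, h.sup_mul_self, mul_smul_comm,
    ← mul_assoc, ← mul_assoc, h.sup_mul_self]

lemma K_mul_sup (c : Fin P.r) (σ : Bool) :
    z.K y c σ * z.sup c =
      z.a c * z.sup c - sg σ • (z.sup c * y * z.sup c) + z.B c σ := by
  have eB : z.B c σ * z.sup c = z.B c σ := by
    conv_lhs => rw [← h.B_sup c σ]
    rw [mul_assoc, h.sup_mul_self, h.B_sup]
  rw [St.K, add_mul, add_mul, sub_mul, sub_mul, one_mul, h.sup_mul_self, sub_self, add_zero, eB,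
    mul_assoc, h.sup_mul_self, smul_mul_assoc, mul_assoc (z.sup c * y), h.sup_mul_self]

lemma commute_sup_K (c : Fin P.r) (σ : Bool) : Commute (z.sup c) (z.K y c σ) :=
  (h.sup_mul_K c σ).trans (h.K_mul_sup c σ).symm

lemma compl_mul_K (c : Fin P.r) (σ : Bool) : (1 - z.sup c) * z.K y c σ = 1 - z.sup c := by
  rw [sub_mul, one_mul, h.sup_mul_K, St.K, add_sub_cancel_left]

lemma commute_sup_G (c : Fin P.r) (σ : Bool) : Commute (z.sup c) (z.G y c σ) := by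
  rw [St.G]
  by_cases hu : IsUnit (z.K y c σ)
  · obtain ⟨u, hu⟩ := hu
    rw [← hu, Ring.inverse_unit]
    exact Commute.units_inv_right (hu ▸ h.commute_sup_K c σ)
  · rw [Ring.inverse_non_unit _ hu]
    exact Commute.zero_right _

lemma G_mem (hy : y ∈ S.M) (c : Fin P.r) (σ : Bool) : z.G y c σ ∈ S.M :=
  S.inverse_mem_M (h.K_mem hy c σ)

lemma compl_mul_G {t : ℝ} (ht : 0 < t) (hK : t • (1 : Op H) ≤ z.K y c σ) :
    (1 - z.sup c) * z.G y c σ = 1 - z.sup c := by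
  have e := congrArg (· * z.G y c σ) (h.compl_mul_K (y := y) c σ)
  simp only [mul_assoc] at e
  rw [St.G, mul_inverse (isUnit_of_le ht hK), mul_one] at e
  exact e.symm

lemma E_K (hB : Basics S) (hy : y ∈ S.M) (hyE : S.E y = 0) (c : Fin P.r) (σ : Bool) :
    S.E (z.K y c σ) = z.a c * z.sup c + S.E (z.B c σ) + (1 - z.sup c) := by
  have has : z.a c * z.sup c ∈ S.A := mul_mem (h.a_mem c) (h.sup_mem c)
  have hsys : z.sup c * y * z.sup c ∈ S.M := mul_mem (mul_mem (h.sup_memM c) hy) (h.sup_memM c)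
  have h1 : z.a c * z.sup c - sg σ • (z.sup c * y * z.sup c) ∈ S.M :=
    sub_mem (S.le _ has) (S.rsmul_mem_M _ hsys)
  have h2 := sub_mem (one_mem S.A) (h.sup_mem c)
  rw [St.K, hB.E_add _ (add_mem h1 (h.B_mem c σ)) _ (S.le _ h2), hB.E_add _ h1 _ (h.B_mem c σ),
    E_sub hB (S.le _ has) (S.rsmul_mem_M _ hsys), hB.E_self _ has, hB.E_self _ h2,
    E_rsmul hB _ hsys, E_two_sided hB (h.sup_mem c) (h.sup_mem c) hy, hyE, mul_zero, smul_zero,
    sub_zero]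

lemma E_B_sa (hB : Basics S) (c : Fin P.r) (σ : Bool) : IsSelfAdjoint (S.E (z.B c σ)) :=
  E_isSelfAdjoint hB (h.B_mem c σ) (IsSelfAdjoint.of_nonneg (h.B_nonneg c σ))

lemma ev_E_K (hB : Basics S) (hy : y ∈ S.M) (hyE : S.E y = 0) (c : Fin P.r) (σ : Bool) :
    S.ev χ (S.E (z.K y c σ)) =
      S.ev χ (z.a c) * S.ev χ (z.sup c) + S.ev χ (S.E (z.B c σ)) + (1 - S.ev χ (z.sup c)) := by
  rw [h.E_K hB hy hyE, ev_add (add_mem (mul_mem (h.a_mem c) (h.sup_mem c))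
    (hB.E_mem _ (h.B_mem c σ))) (sub_mem (one_mem _) (h.sup_mem c)),
    ev_add (mul_mem (h.a_mem c) (h.sup_mem c)) (hB.E_mem _ (h.B_mem c σ)),
    ev_mul (h.a_mem c) (h.sup_mem c) (h.a_sa c), ev_sub (one_mem _) (h.sup_mem c), ev_one]

lemma ev_E_B_nonneg (hB : Basics S) (c : Fin P.r) (σ : Bool) :
    0 ≤ S.ev χ (S.E (z.B c σ)) :=
  ev_nonneg (hB.E_mem _ (h.B_mem c σ)) (hB.E_nonneg _ (h.B_mem c σ) (h.B_nonneg c σ))

end Core

variable {t : ℝ}

/-- The expectation of a resolvent is positive, and at least the inverse of that of its operator. -/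
lemma ev_g (hB : Basics S) (h : z.Core P) (hy : y ∈ S.M) (ht : 0 < t)
    (hK : t • (1 : Op H) ≤ z.K y c σ) (χ : S.Chi) :
    0 < S.ev χ ((z.side y c).g σ) ∧ S.ev χ ((z.side y c).g σ) ≤ t⁻¹ ∧
      1 ≤ S.ev χ ((z.side y c).g σ) * S.ev χ (S.E (z.K y c σ)) := by
  have hKm := h.K_mem hy c σ
  have hG := h.G_mem hy c σ
  have hG0 : 0 ≤ z.G y c σ := inverse_nonneg ht hK
  have hgm := hB.E_mem _ hG
  have hgs : IsSelfAdjoint (S.E (z.G y c σ)) :=
    E_isSelfAdjoint hB hG (IsSelfAdjoint.of_nonneg hG0)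
  have hEm := hB.E_mem _ hKm
  have hEs : IsSelfAdjoint (S.E (z.K y c σ)) :=
    E_isSelfAdjoint hB hKm (isSelfAdjoint_of_le hK)
  have h1 : 1 ≤ S.E (z.G y c σ) * S.E (z.K y c σ) := one_le_E_mul_E hB ht hK hKm
  have h2 := ev_le (χ := χ) (one_mem _) (mul_mem hgm hEm) (IsSelfAdjoint.one _) h1
  rw [ev_one, ev_mul hgm hEm hgs] at h2
  have h0 := ev_nonneg (χ := χ) hgm (hB.E_nonneg _ hG hG0)
  refine ⟨lt_of_le_of_ne h0 fun e => ?_, ?_, h2⟩
  · change (0 : ℝ) = S.ev χ (S.E (z.G y c σ)) at e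
    rw [← e, zero_mul] at h2
    norm_num at h2
  · show S.ev χ (S.E (z.G y c σ)) ≤ t⁻¹
    exact (le_abs_self _).trans ((abs_ev_le hgm).trans
      ((hB.E_norm _ hG).trans (norm_inverse_le ht hK)))

lemma g_isUnit (hB : Basics S) (h : z.Core P) (hy : y ∈ S.M) (ht : 0 < t)
    (hK : t • (1 : Op H) ≤ z.K y c σ) : IsUnit ((z.side y c).g σ) := by
  have hKm := h.K_mem hy c σ
  set N := ‖S.E (z.K y c σ)‖ + 1
  have hN : (0 : ℝ) < N := by positivity
  have hgm := hB.E_mem _ (h.G_mem hy c σ)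
  refine isUnit_of_le (inv_pos.2 hN) ((le_iff (smul_real_mem _ (one_mem _)) hgm
    (isSelfAdjoint_smul_one _) (E_isSelfAdjoint hB (h.G_mem hy c σ)
      (IsSelfAdjoint.of_nonneg (inverse_nonneg ht hK)))).2 fun χ => ?_)
  obtain ⟨h0, -, h1⟩ := ev_g hB h hy ht hK χ
  rw [ev_smul _ (one_mem _), ev_one, mul_one]
  have h2 : S.ev χ (S.E (z.K y c σ)) ≤ N :=
    (le_abs_self _).trans ((abs_ev_le (hB.E_mem _ hKm)).trans (by simp [N]))
  rw [inv_le_iff_one_le_mul₀ hN]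
  exact h1.trans (mul_le_mul_of_nonneg_left h2 h0.le)

lemma ev_gi (hB : Basics S) (h : z.Core P) (hy : y ∈ S.M) (ht : 0 < t)
    (hK : t • (1 : Op H) ≤ z.K y c σ) :
    S.ev χ ((z.side y c).gi σ) = (S.ev χ ((z.side y c).g σ))⁻¹ :=
  ev_inverse (hB.E_mem _ (h.G_mem hy c σ)) (E_isSelfAdjoint hB (h.G_mem hy c σ)
    (IsSelfAdjoint.of_nonneg (inverse_nonneg ht hK))) (g_isUnit hB h hy ht hK)

lemma xi_mem (hB : Basics S) (h : z.Core P) (hy : y ∈ S.M) (c : Fin P.r) (σ : Bool) :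
    (z.side y c).xi σ ∈ S.A :=
  sub_mem (h.a_mem c) (S.inverse_mem_A (hB.E_mem _ (h.G_mem hy c σ)))

lemma ev_xi (hB : Basics S) (h : z.Core P) (hy : y ∈ S.M) (ht : 0 < t)
    (hK : t • (1 : Op H) ≤ z.K y c σ) :
    S.ev χ ((z.side y c).xi σ) = S.ev χ (z.a c) - (S.ev χ ((z.side y c).g σ))⁻¹ := by
  rw [← ev_gi hB h hy ht hK]
  exact ev_sub (h.a_mem c) (S.inverse_mem_A (hB.E_mem _ (h.G_mem hy c σ)))

/-- Jensen at a live point: `xi ≥ -E B`. -/
lemma xi_ge (hB : Basics S) (h : z.Core P) (hy : y ∈ S.M) (hyE : S.E y = 0) (ht : 0 < t)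
    (hK : t • (1 : Op H) ≤ z.K y c σ) (hl : S.ev χ (z.live c) = 1) :
    -S.ev χ (S.E (z.B c σ)) ≤ S.ev χ ((z.side y c).xi σ) ∧
      (S.ev χ ((z.side y c).g σ))⁻¹ ≤ S.ev χ (z.a c) + S.ev χ (S.E (z.B c σ)) := by
  obtain ⟨h0, -, h1⟩ := ev_g hB h hy ht hK χ
  rw [h.ev_E_K hB hy hyE, h.ev_sup_of_live hl, mul_one, sub_self, add_zero] at h1
  have h2 : (S.ev χ ((z.side y c).g σ))⁻¹ ≤ S.ev χ (z.a c) + S.ev χ (S.E (z.B c σ)) := by
    rw [inv_le_iff_one_le_mul₀ h0, mul_comm]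
    exact h1
  rw [ev_xi hB h hy ht hK]
  exact ⟨by linarith, h2⟩

lemma a_isUnit (h : z.Core P) (c : Fin P.r) : IsUnit (z.a c) := by
  refine isUnit_of_le (t := 1) one_pos ((le_iff (smul_real_mem _ (one_mem _)) (h.a_mem c)
    (isSelfAdjoint_smul_one _) (h.a_sa c)).2 fun χ => ?_)
  rw [ev_smul _ (one_mem _), ev_one, mul_one]
  exact h.a_ge c χ

lemma ev_p (h : z.Core P) : S.ev χ (z.side y c).p = (S.ev χ (z.a c))⁻¹ :=
  ev_inverse (h.a_mem c) (h.a_sa c) (a_isUnit h c)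

lemma p_mem (h : z.Core P) : (z.side y c).p ∈ S.A := S.inverse_mem_A (h.a_mem c)

lemma p_sa (h : z.Core P) : IsSelfAdjoint (z.side y c).p := inverse_isSelfAdjoint (h.a_sa c)

lemma pot_mem (h : z.Core P) : (z.side y c).pot ∈ S.A :=
  add_mem (p_mem h) (smul_real_mem _ (mul_mem (p_mem h) (p_mem h)))

lemma ev_pot (h : z.Core P) :
    S.ev χ (z.side y c).pot = (S.ev χ (z.a c))⁻¹ + kB * ((S.ev χ (z.a c))⁻¹ * (S.ev χ (z.a c))⁻¹) := by
  rw [Side.pot, ev_add (p_mem h) (smul_real_mem _ (mul_mem (p_mem h) (p_mem h))),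
    ev_smul _ (mul_mem (p_mem h) (p_mem h)), ev_mul (p_mem h) (p_mem h) (p_sa h), ev_p h]

lemma pot_sa (h : z.Core P) : IsSelfAdjoint (z.side y c).pot :=
  (p_sa h).add (isSelfAdjoint_rsmul kB
    ((p_sa h).commute_iff (p_sa h) |>.1 (Commute.refl _)))

lemma fz_mem (hB : Basics S) (h : z.Core P) (hy : y ∈ S.M) : (z.side y c).fz ∈ S.A :=
  sub_mem (sub_mem (one_mem _) (xi_mem hB h hy c false)) (xi_mem hB h hy c true)

lemma ev_fz (hB : Basics S) (h : z.Core P) (hy : y ∈ S.M) :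
    S.ev χ (z.side y c).fz =
      1 - S.ev χ ((z.side y c).xi false) - S.ev χ ((z.side y c).xi true) := by
  rw [Side.fz, ev_sub (sub_mem (one_mem _) (xi_mem hB h hy c false)) (xi_mem hB h hy c true),
    ev_sub (one_mem _) (xi_mem hB h hy c false), ev_one]

lemma F_mem (hB : Basics S) (h : z.Core P) (hy : y ∈ S.M) : z.F y ∈ S.A :=
  add_mem (sum_mem fun c _ => mul_mem (h.live_mem c) (mul_mem (pot_mem h) (fz_mem hB h hy)))
    h.loss_mem

lemma ev_F (hB : Basics S) (h : z.Core P) (hy : y ∈ S.M) :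
    S.ev χ (z.F y) =
      (∑ c, S.ev χ (z.live c) * (S.ev χ (z.side y c).pot * S.ev χ (z.side y c).fz)) +
        S.ev χ z.loss := by
  rw [St.F, ev_add (sum_mem fun c _ => mul_mem (h.live_mem c)
    (mul_mem (pot_mem h) (fz_mem hB h hy))) h.loss_mem,
    ev_sum _ _ fun c _ => mul_mem (h.live_mem c) (mul_mem (pot_mem h) (fz_mem hB h hy))]
  congr 1
  refine Finset.sum_congr rfl fun c _ => ?_
  rw [ev_mul (h.live_mem c) (mul_mem (pot_mem h) (fz_mem hB h hy)) (h.live_proj c).isSelfAdjoint,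
    ev_mul (pot_mem h) (fz_mem hB h hy) (pot_sa h)]

/-- At a live point the potential is at most `3/1000` and the factor at most `51/50`. -/
lemma live_bounds (hB : Basics S) (h : z.Core P) (hy : y ∈ S.M) (hyE : S.E y = 0) (ht : 0 < t)
    (hK : ∀ σ, t • (1 : Op H) ≤ z.K y c σ) (hl : S.ev χ (z.live c) = 1)
    (ha : 499 ≤ S.ev χ (z.a c)) :
    0 ≤ S.ev χ (z.side y c).pot ∧ S.ev χ (z.side y c).pot ≤ 3 / 1000 ∧
      S.ev χ (z.side y c).fz ≤ 51 / 50 := by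
  have hp0 : 0 ≤ (S.ev χ (z.a c))⁻¹ := inv_nonneg.2 (by linarith)
  have hp : (S.ev χ (z.a c))⁻¹ ≤ 1 / 499 := by
    rw [one_div]; exact inv_anti₀ (by norm_num) ha
  refine ⟨?_, ?_, ?_⟩
  · rw [ev_pot h, kB]; positivity
  · rw [ev_pot h, kB]; nlinarith
  · have h1 := (xi_ge hB h hy hyE ht (hK false) hl).1
    have h2 := (xi_ge hB h hy hyE ht (hK true) hl).1
    have h3 := h.live_B c false χ hl
    have h4 := h.live_B c true χ hl
    rw [ev_fz hB h hy]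
    linarith

lemma F_le (hB : Basics S) (hP : P.Ok) (h : z.Core P) (hy : y ∈ S.M) (hyE : S.E y = 0)
    (ht : 0 < t) (hK : ∀ c σ, t • (1 : Op H) ≤ z.K y c σ)
    (ha : ∀ c, S.ev χ (z.live c) = 1 → 499 ≤ S.ev χ (z.a c)) :
    S.ev χ (z.F y) ≤ P.r := by
  rw [ev_F hB h hy]
  have hterm : ∀ c, S.ev χ (z.live c) * (S.ev χ (z.side y c).pot * S.ev χ (z.side y c).fz)
      ≤ 1 / 10 := fun c => by
    rcases h.ev_live c χ with e | e
    · rw [e, zero_mul]; norm_num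
    · obtain ⟨h0, h1, h2⟩ := live_bounds hB h hy hyE ht (hK c) e (ha c e)
      rw [e, one_mul]
      nlinarith
  have hs := Finset.sum_le_sum fun c (_ : c ∈ Finset.univ) => hterm c
  have hl : S.ev χ z.loss ≤ 3 / 1000 := by
    have h1 := h.loss_le χ
    have h2 : 0 ≤ ∑ c, S.ev χ (z.sup c) := Finset.sum_nonneg fun c _ => (h.ev_sup_le c χ).1
    have := hP.r_c0
    nlinarith [mul_nonneg (le_of_lt hP.c0_pos) h2]
  have hr : (1000 : ℝ) ≤ P.r := by exact_mod_cast hP.r_big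
  simp only [Finset.sum_const, Finset.card_univ, Fintype.card_fin, nsmul_eq_mul] at hs
  linarith

end St

end Vale.Agent.P078.Tr.Iter
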