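import Vale.Agent.P078.Tr.Iter.Trace

/-!
# Iteration: inverses of operators bounded below
-/

open scoped ComplexOrder InnerProductSpace

noncomputable section

namespace Vale.Agent.P078.Tr.Iter

universe u

variable {H : Type u} [NormedAddCommGroup H] [InnerProductSpace ℂ H] [CompleteSpace H]

lemma isSelfAdjoint_smul_one (t : ℝ) : IsSelfAdjoint (t • (1 : Op H)) :=
  (IsSelfAdjoint.all t).smul (IsSelfAdjoint.one (Op H))

lemma isUnit_of_le {K : Op H} {t : ℝ} (ht : 0 < t) (h : t • (1 : Op H) ≤ K) : IsUnit K := by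
  exact CStarAlgebra.isUnit_of_le (t • (1 : Op H)) h
    (IsStrictlyPositive.smul ht isStrictlyPositive_one)

omit [CompleteSpace H] in
lemma inverse_mul {K : Op H} (h : IsUnit K) : Ring.inverse K * K = 1 := Ring.inverse_mul_cancel _ h

omit [CompleteSpace H] in
lemma mul_inverse {K : Op H} (h : IsUnit K) : K * Ring.inverse K = 1 := Ring.mul_inverse_cancel _ h

lemma inverse_isSelfAdjoint {K : Op H} (hs : IsSelfAdjoint K) :
    IsSelfAdjoint (Ring.inverse K) := by
  by_cases h : IsUnit K
  · have e1 := congrArg star (inverse_mul h)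
    rw [star_mul, star_one, hs.star_eq] at e1
    have : star (Ring.inverse K) = Ring.inverse K := by
      calc star (Ring.inverse K) = Ring.inverse K * (K * star (Ring.inverse K)) := by
            rw [← mul_assoc, inverse_mul h, one_mul]
        _ = Ring.inverse K := by rw [e1, mul_one]
    exact this
  · rw [Ring.inverse_non_unit _ h]
    exact IsSelfAdjoint.zero _

lemma isSelfAdjoint_of_le {K : Op H} {t : ℝ} (h : t • (1 : Op H) ≤ K) : IsSelfAdjoint K := by
  have h1 : IsSelfAdjoint (K - t • (1 : Op H)) := IsSelfAdjoint.of_nonneg (sub_nonneg.2 h)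
  have h2 := h1.add ((IsSelfAdjoint.all t).smul (IsSelfAdjoint.one (Op H)))
  rwa [sub_add_cancel] at h2

lemma inverse_nonneg {K : Op H} {t : ℝ} (ht : 0 < t) (h : t • (1 : Op H) ≤ K) :
    0 ≤ Ring.inverse K := by
  have hu := isUnit_of_le ht h
  have hK : (0 : Op H) ≤ K := le_trans (smul_nonneg ht.le zero_le_one) h
  have := star_left_conjugate_nonneg hK (Ring.inverse K)
  rwa [(inverse_isSelfAdjoint (isSelfAdjoint_of_le h)).star_eq, inverse_mul hu, one_mul] at this

lemma inverse_le {K : Op H} {t : ℝ} (ht : 0 < t) (h : t • (1 : Op H) ≤ K) :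
    Ring.inverse K ≤ t⁻¹ • (1 : Op H) := by
  have hu := isUnit_of_le ht h
  have hG := inverse_nonneg ht h
  have hGs : IsSelfAdjoint (Ring.inverse K) := IsSelfAdjoint.of_nonneg hG
  have h2 := star_left_conjugate_le_conjugate h (Ring.inverse K)
  rw [hGs.star_eq, inverse_mul hu, one_mul, mul_smul_comm, mul_one, smul_mul_assoc] at h2
  -- `t G² ≤ G`
  set G := Ring.inverse K
  have h3 : (0 : Op H) ≤ t⁻¹ • (star (t • G - 1) * (t • G - 1)) :=
    smul_nonneg (inv_nonneg.2 ht.le) (star_mul_self_nonneg _)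
  have e : t⁻¹ • (star (t • G - 1) * (t • G - 1)) = t⁻¹ • (1 : Op H) - G + (t • (G * G) - G) := by
    rw [star_sub, star_smul, hGs.star_eq, star_one, star_trivial]
    simp only [sub_mul, mul_sub, smul_mul_assoc, mul_smul_comm, one_mul, mul_one, smul_sub,
      smul_smul]
    rw [← mul_assoc t⁻¹ t t, inv_mul_cancel₀ ht.ne', one_mul, one_smul]
    abel
  rw [e] at h3
  have h4 : t • (G * G) - G ≤ 0 := sub_nonpos.2 h2
  have h5 := h3.trans (add_le_add_right h4 _)
  simp only [add_zero, sub_nonneg] at h5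
  exact h5

lemma norm_inverse_le {K : Op H} {t : ℝ} (ht : 0 < t) (h : t • (1 : Op H) ≤ K) :
    ‖Ring.inverse K‖ ≤ t⁻¹ := by
  refine (CStarAlgebra.norm_le_norm_of_nonneg_of_le (inverse_nonneg ht h) (inverse_le ht h)).trans ?_
  rw [norm_smul, Real.norm_of_nonneg (inv_nonneg.2 ht.le)]
  exact mul_le_of_le_one_right (inv_nonneg.2 ht.le) ContinuousLinearMap.norm_id_le

omit [CompleteSpace H] in
/-- Second order expansion of the inverse, with its exact remainder. -/
lemma inverse_expand {K d : Op H} (h : IsUnit K) (h' : IsUnit (K + d)) :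
    Ring.inverse (K + d) = Ring.inverse K - Ring.inverse K * d * Ring.inverse K +
      Ring.inverse K * d * Ring.inverse K * d * Ring.inverse K -
      Ring.inverse K * d * Ring.inverse K * d * Ring.inverse K * d * Ring.inverse (K + d) := by
  set G := Ring.inverse K
  set G' := Ring.inverse (K + d)
  have e : G' = G - G * d * G' := by
    calc G' = (G * K) * G' := by rw [inverse_mul h, one_mul]
      _ = G * ((K + d) * G') - G * d * G' := by noncomm_ring
      _ = G - G * d * G' := by rw [mul_inverse h', mul_one]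
  calc G' = G - G * d * (G - G * d * (G - G * d * G')) := by rw [← e, ← e, ← e]
    _ = _ := by noncomm_ring

/-- The inverse of a compression is below the compression of the inverse. -/
lemma inverse_compress_le {K Y e : Op H} (hK : IsUnit K) (hK0 : 0 ≤ K)
    (hY : Y * (e * K * e) * Y = Y) (hYe : e * Y = Y) (hYe' : Y * e = Y) (hYs : IsSelfAdjoint Y) :
    Y ≤ Ring.inverse K := by
  have hGs := inverse_isSelfAdjoint (IsSelfAdjoint.of_nonneg hK0)
  have h := star_left_conjugate_nonneg hK0 (Ring.inverse K - Y)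
  rw [star_sub, hGs.star_eq, hYs.star_eq] at h
  have e1 : Y * K * Y = Y := by
    calc Y * K * Y = (Y * e) * K * (e * Y) := by rw [hYe, hYe']
      _ = Y * (e * K * e) * Y := by noncomm_ring
      _ = Y := hY
  have : (Ring.inverse K - Y) * K * (Ring.inverse K - Y) = Ring.inverse K - Y := by
    calc _ = (Ring.inverse K * K) * Ring.inverse K - (Ring.inverse K * K) * Y -
          Y * (K * Ring.inverse K) + Y * K * Y := by noncomm_ring
      _ = Ring.inverse K - Y := by rw [inverse_mul hK, mul_inverse hK, e1]; noncomm_ring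
  rwa [this, sub_nonneg] at h

variable {S : Tracial H}

/-- Jensen: `E (K⁻¹) E K ≥ 1`. -/
lemma one_le_E_mul_E (hB : Basics S) {K : Op H} {t : ℝ} (ht : 0 < t) (h : t • (1 : Op H) ≤ K)
    (hK : K ∈ S.M) : 1 ≤ S.E (Ring.inverse K) * S.E K := by
  set G := Ring.inverse K
  have hu := isUnit_of_le ht h
  have hG : G ∈ S.M := S.inverse_mem_M hK
  have hG0 : 0 ≤ G := inverse_nonneg ht h
  have hEK : t • (1 : Op H) ≤ S.E K := by
    have := E_mono hB (S.rsmul_mem_M t (one_mem _)) hK h
    rwa [E_rsmul hB t (one_mem _), hB.E_self 1 (one_mem _)] at this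
  have hEm := hB.E_mem K hK
  have hEs : IsSelfAdjoint (S.E K) := isSelfAdjoint_of_le hEK
  have hEu := isUnit_of_le ht hEK
  set s := Ring.inverse (S.E K)
  have hs : s ∈ S.A := S.inverse_mem_A hEm
  have hsM := S.le s hs
  have hss : IsSelfAdjoint s := inverse_isSelfAdjoint hEs
  have h0 := star_left_conjugate_nonneg hG0 (1 - K * s)
  have e : star (1 - K * s) * G * (1 - K * s) = G - s - s + s * K * s := by
    rw [star_sub, star_one, star_mul, hss.star_eq, (isSelfAdjoint_of_le h).star_eq]
    calc (1 - s * K) * G * (1 - K * s)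
        = G - (G * K) * s - s * (K * G) + s * (K * G) * K * s := by noncomm_ring
      _ = G - s - s + s * K * s := by rw [inverse_mul hu, mul_inverse hu]; noncomm_ring
  rw [e] at h0
  have hsKs : s * K * s ∈ S.M := mul_mem (mul_mem hsM hK) hsM
  have h1 := hB.E_nonneg _ (add_mem (sub_mem (sub_mem hG hsM) hsM) hsKs) h0
  rw [hB.E_add _ (sub_mem (sub_mem hG hsM) hsM) _ hsKs, E_sub hB (sub_mem hG hsM) hsM,
    E_sub hB hG hsM, hB.E_self s hs, mul_assoc s K s, (hB.E_mul s hs _ (mul_mem hK hsM)).1,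
    (hB.E_mul s hs K hK).2, inverse_mul hEu, mul_one, sub_add_cancel, sub_nonneg] at h1
  have hgm := hB.E_mem G hG
  have hgs : IsSelfAdjoint (S.E G) := E_isSelfAdjoint hB hG (IsSelfAdjoint.of_nonneg hG0)
  refine (Tracial.le_iff (one_mem _) (mul_mem hgm hEm) (IsSelfAdjoint.one _) ?_).2 fun χ => ?_
  · rw [IsSelfAdjoint, star_mul, hgs.star_eq, hEs.star_eq, S.comm _ hgm _ hEm]
  have h2 := (Tracial.le_iff hs hgm hss hgs).1 h1 χ
  have h3 : S.ev χ s * S.ev χ (S.E K) = 1 := by
    rw [← Tracial.ev_mul hs hEm hss, inverse_mul hEu, Tracial.ev_one]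
  have h4 : 0 ≤ S.ev χ (S.E K) := by
    have := (Tracial.le_iff (Tracial.smul_real_mem t (one_mem _)) hEm
      (isSelfAdjoint_smul_one t) hEs).1 hEK χ
    rw [Tracial.ev_smul _ (one_mem _), Tracial.ev_one] at this
    linarith
  rw [Tracial.ev_mul hgm hEm hgs, Tracial.ev_one]
  nlinarith

end Vale.Agent.P078.Tr.Iter
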