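import Mathlib

/-!
# Iteration: averages over sign vectors
-/

noncomputable section

namespace Vale.Agent.P078.Tr.Iter

open Finset

/-- The sign of a bit. -/
def sg (b : Bool) : ℝ := if b then 1 else -1

lemma sg_mul_self (b : Bool) : sg b * sg b = 1 := by cases b <;> simp [sg]

lemma sg_not (b : Bool) : sg (!b) = -sg b := by cases b <;> simp [sg]

/-- Flipping one bit. -/
def flipAt {n : ℕ} (j : Fin n) : (Fin n → Bool) ≃ (Fin n → Bool) where
  toFun s := Function.update s j (!s j)
  invFun s := Function.update s j (!s j)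
  left_inv s := by funext i; by_cases h : i = j <;> simp [Function.update, h]
  right_inv s := by funext i; by_cases h : i = j <;> simp [Function.update, h]

lemma sum_sg_mul_sg {n : ℕ} (j k : Fin n) :
    ∑ s : Fin n → Bool, sg (s j) * sg (s k) = if j = k then (2 : ℝ) ^ n else 0 := by
  by_cases h : j = k
  · simp [h, sg_mul_self]
  · rw [if_neg h]
    have := Equiv.sum_comp (flipAt j) fun s : Fin n → Bool => sg (s j) * sg (s k)
    simp [flipAt, Function.update, Ne.symm h, sg_not, Finset.sum_neg_distrib] at this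
    linarith

variable {V : Type*} [AddCommGroup V] [Module ℝ V]

/-- A bilinear expression averages to its diagonal. -/
lemma sum_bilin {n : ℕ} (v : Fin n → Fin n → V) :
    ∑ s : Fin n → Bool, ∑ j, ∑ k, (sg (s j) * sg (s k)) • v j k = (2 : ℝ) ^ n • ∑ j, v j j := by
  rw [Finset.sum_comm, Finset.smul_sum]
  refine sum_congr rfl fun j _ => ?_
  rw [Finset.sum_comm]
  simp_rw [← Finset.sum_smul, sum_sg_mul_sg]
  simp [ite_smul]

/-- An odd function sums to zero. -/
lemma sum_odd {n : ℕ} (g : (Fin n → Bool) → V) (h : ∀ s, g (fun j => !s j) = -g s) :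
    ∑ s, g s = 0 := by
  let e : (Fin n → Bool) ≃ (Fin n → Bool) :=
    ⟨fun s j => !s j, fun s j => !s j, fun s => by simp, fun s => by simp⟩
  have h1 := Equiv.sum_comp e g
  simp only [e, Equiv.coe_fn_mk, h, Finset.sum_neg_distrib] at h1
  have h2 : (2 : ℝ) • ∑ s, g s = 0 := by
    rw [two_smul]; nth_rw 1 [← h1]; exact neg_add_cancel _
  exact (smul_eq_zero.1 h2).resolve_left two_ne_zero

lemma sum_sq {n : ℕ} (f : Fin n → ℝ) :
    ∑ s : Fin n → Bool, (∑ j, sg (s j) * f j) ^ 2 = 2 ^ n * ∑ j, f j ^ 2 := by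
  have h := sum_bilin fun j k => f j * f k
  simp only [smul_eq_mul] at h
  simp only [sq]
  rw [← h]
  refine sum_congr rfl fun s _ => ?_
  rw [Finset.sum_mul_sum]
  exact sum_congr rfl fun j _ => sum_congr rfl fun k _ => by ring

/-- Khintchine for the fourth moment. -/
lemma sum_pow_four : ∀ {n : ℕ} (f : Fin n → ℝ),
    ∑ s : Fin n → Bool, (∑ j, sg (s j) * f j) ^ 4 ≤ 2 ^ n * (3 * (∑ j, f j ^ 2) ^ 2)
  | 0, f => by simp
  | n + 1, f => by
    rw [← Equiv.sum_comp (Fin.consEquiv fun _ : Fin (n + 1) => Bool), Fintype.sum_prod_type]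
    simp only [Fin.consEquiv_apply, Fin.sum_univ_succ, Fin.cons_zero, Fin.cons_succ,
      Fintype.sum_bool]
    rw [← Finset.sum_add_distrib]
    have h2 := sum_sq fun j : Fin n => f j.succ
    have h4 := sum_pow_four fun j : Fin n => f j.succ
    have e : ∀ s : Fin n → Bool,
        (sg true * f 0 + ∑ j : Fin n, sg (s j) * f j.succ) ^ 4 +
        (sg false * f 0 + ∑ j : Fin n, sg (s j) * f j.succ) ^ 4 =
        2 * (∑ j : Fin n, sg (s j) * f j.succ) ^ 4 +
          12 * f 0 ^ 2 * (∑ j : Fin n, sg (s j) * f j.succ) ^ 2 + 2 * f 0 ^ 4 := by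
      intro s; simp [sg]; ring
    simp only [e, Finset.sum_add_distrib, ← Finset.mul_sum, h2, sum_const, card_univ,
      Fintype.card_fun, Fintype.card_bool, Fintype.card_fin, nsmul_eq_mul]
    push_cast
    rw [pow_succ (2 : ℝ) n]
    have hp : (0 : ℝ) < 2 ^ n := by positivity
    nlinarith [mul_nonneg hp.le (pow_nonneg (sq_nonneg (f 0)) 2)]

end Vale.Agent.P078.Tr.Iter
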