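import Vale.Agent.P078.Tr.Iter.Ev
import Vale.Agent.P078.Tr.Iter.Moments

/-!
# Iteration: states, their potential and the module statements

A state keeps, for every colour `c`, its live points, its frozen points, a weight `a c`, and for
every sign a positive slack `B c σ`, such that `K c σ` is bounded below.
-/

open scoped ComplexOrder InnerProductSpace

noncomputable section

namespace Vale.Agent.P078.Tr.Iter

universe u

variable {H : Type u} [NormedAddCommGroup H] [InnerProductSpace ℂ H] [CompleteSpace H]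

open Tracial

/-- The numerical parameters of the iteration. -/
structure Par where
  /-- The number of colours. -/
  r : ℕ
  /-- The cutoff for the mass and the factor of a live point. -/
  c0 : ℝ
  /-- The lower bound of the operators `K`. -/
  tau : ℝ
  /-- The weight of the resolvents in the objective. -/
  lam1 : ℝ
  /-- The weight of the potential in the objective. -/
  lam2 : ℝ
  /-- The rate of the exponential. -/
  kap : ℝ

/-- Side conditions on the parameters. -/
structure Par.Ok (P : Par) : Prop where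
  r_big : 1000 ≤ P.r
  c0_pos : 0 < P.c0
  c0_le : P.c0 ≤ 1 / 1000
  r_c0 : (P.r : ℝ) * P.c0 ≤ 1 / 1000
  tau_pos : 0 < P.tau
  tau_le : P.tau ≤ 1 / 10
  lam1_pos : 0 < P.lam1
  lam2_pos : 0 < P.lam2
  kap_pos : 0 < P.kap

/-- A state of the iteration. -/
structure St (S : Tracial H) (r : ℕ) where
  /-- The active points. -/
  act : Op H
  /-- The live points of a colour. -/
  live : Fin r → Op H
  /-- The frozen points of a colour. -/
  fro : Fin r → Op H
  /-- The weight of a colour. -/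
  a : Fin r → Op H
  /-- The slack of a colour and a sign. -/
  B : Fin r → Bool → Op H
  /-- The potential lost by killing. -/
  loss : Op H
  /-- A bound for the mass discarded because of large slack. -/
  mB : ℝ
  /-- A bound for the mass discarded because of small potential. -/
  mF : ℝ
  /-- The budget of slack. -/
  beta : ℝ

namespace St

variable {S : Tracial H} {r : ℕ} (z : St S r) (y : Op H)

/-- The support of a colour. -/
def sup (c : Fin r) : Op H := z.live c + z.fro c

/-- The operator of a colour and a sign. -/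
def K (c : Fin r) (σ : Bool) : Op H :=
  z.a c * z.sup c - sg σ • (z.sup c * y * z.sup c) + z.B c σ + (1 - z.sup c)

/-- Its inverse. -/
def G (c : Fin r) (σ : Bool) : Op H := Ring.inverse (z.K y c σ)

/-- The live part of a colour, as seen by modules Covariance and Drift. -/
def side (c : Fin r) : Side S := ⟨z.live c, z.a c, z.G y c⟩

/-- The potential of the points. -/
def F : Op H := ∑ c, z.live c * ((z.side y c).pot * (z.side y c).fz) + z.loss

end St

/-- `exp (-κ (t - 3/5))`. -/
def phiFun (κ : ℝ) : C(ℝ, ℝ) :=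
  ⟨fun t => Real.exp (-κ * (t - 3 / 5)), by fun_prop⟩

variable (S : Tracial H) in
/-- The exponential of an element of `A`. -/
def phi (κ : ℝ) (F : Op H) : Op H := appA S (phiFun κ) F

namespace St

variable {S : Tracial H} (P : Par) (y : Op H) (z : St S P.r)

/-- The resolvent part of the objective. -/
def gam : ℝ := ∑ c, ∑ σ, S.tr (z.sup c * z.G y c σ)

/-- The objective. -/
def obj : ℝ :=
  (z.mF + S.tr (z.act * phi S P.kap (z.F y))) + P.lam1 * (z.gam P y + z.beta / P.tau ^ 2) -
    P.lam2 * (S.tr (z.act * z.F y) + P.r * S.tr (1 - z.act))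

/-- What every state satisfies. -/
structure Core : Prop where
  act_mem : z.act ∈ S.A
  act_proj : IsStarProjection z.act
  live_mem : ∀ c, z.live c ∈ S.A
  live_proj : ∀ c, IsStarProjection (z.live c)
  fro_mem : ∀ c, z.fro c ∈ S.A
  fro_proj : ∀ c, IsStarProjection (z.fro c)
  live_act : ∀ c, z.act * z.live c = z.live c
  fro_act : ∀ c, z.act * z.fro c = 0
  fro_orth : ∀ c c', c ≠ c' → z.fro c * z.fro c' = 0
  a_mem : ∀ c, z.a c ∈ S.A
  a_sa : ∀ c, IsSelfAdjoint (z.a c)
  a_ge : ∀ c (χ : S.Chi), 1 ≤ S.ev χ (z.a c)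
  fro_a : ∀ c (χ : S.Chi), S.ev χ (z.fro c) = 1 → S.ev χ (z.a c) ≤ 500
  B_mem : ∀ c σ, z.B c σ ∈ S.M
  B_nonneg : ∀ c σ, 0 ≤ z.B c σ
  B_sup : ∀ c σ, z.sup c * z.B c σ * z.sup c = z.B c σ
  live_B : ∀ c σ (χ : S.Chi), S.ev χ (z.live c) = 1 → S.ev χ (S.E (z.B c σ)) ≤ 1 / 100
  loss_mem : z.loss ∈ S.A
  loss_sa : IsSelfAdjoint z.loss
  loss_nonneg : ∀ χ : S.Chi, 0 ≤ S.ev χ z.loss
  loss_le : ∀ χ : S.Chi,
    S.ev χ z.loss + 3 * P.c0 * ∑ c, S.ev χ (z.sup c) ≤ 3 * P.c0 * P.r
  mB_nonneg : 0 ≤ z.mB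
  mF_nonneg : 0 ≤ z.mF
  rest : S.tr (1 - ∑ c, z.fro c) ≤ S.tr z.act + z.mB + z.mF
  budget : (1 / 100) * z.mB + ∑ c, ∑ σ, S.tr (z.B c σ) ≤ z.beta

/-- A state right after a step. -/
structure Loose : Prop extends Core P z where
  K_lo : ∀ c σ, (P.tau / 2) • (1 : Op H) ≤ z.K y c σ
  live_a : ∀ c (χ : S.Chi), S.ev χ (z.live c) = 1 →
    499 ≤ S.ev χ (z.a c) ∧ S.ev χ (z.a c) ≤ 1 / P.c0 + 1

/-- A state ready for a step. -/
structure Strict : Prop extends Core P z where
  K_lo : ∀ c σ, P.tau • (1 : Op H) ≤ z.K y c σ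
  live_a : ∀ c (χ : S.Chi), S.ev χ (z.live c) = 1 →
    500 ≤ S.ev χ (z.a c) ∧ S.ev χ (z.a c) ≤ 1 / P.c0
  live_fz : ∀ c (χ : S.Chi), S.ev χ (z.live c) = 1 → P.c0 ≤ S.ev χ (z.side y c).fz
  act_F : ∀ χ : S.Chi, S.ev χ z.act = 1 → 3 / 5 ≤ S.ev χ (z.F y)

end St

/-! ### Statements of the parts -/

/-- Part Cleanup: a loose state can be made strict without raising the objective. -/
def CleanupStatement : Prop :=
  ∀ (H : Type u) [NormedAddCommGroup H] [InnerProductSpace ℂ H] [CompleteSpace H] (S : Tracial H)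
    (P : Par) (y : Op H) (z : St S P.r),
    Basics S → P.Ok → y ∈ S.M → IsSelfAdjoint y → S.E y = 0 → z.Loose P y →
    ∃ z' : St S P.r, z'.Strict P y ∧ z'.obj P y ≤ z.obj P y

/-- Part Step: while the active mass is above `δ₁` the objective can be lowered by a fixed
amount. -/
def StepStatement : Prop :=
  ∀ (H : Type u) [NormedAddCommGroup H] [InnerProductSpace ℂ H] [CompleteSpace H] (S : Tracial H)
    (P : Par) (y : Op H) (δ₁ : ℝ),
    Basics S → P.Ok → y ∈ S.M → IsSelfAdjoint y → S.E y = 0 → 0 < δ₁ →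
    ∃ γ > (0 : ℝ), ∀ z : St S P.r, z.Strict P y → δ₁ < S.tr z.act →
      ∃ z' : St S P.r, z'.Loose P y ∧ z'.obj P y ≤ z.obj P y - γ

/-- The outcome of the walk: projections `fro c` covering almost everything on which `± y` is at
most `500` up to a slack of small trace. -/
def WalkStatement : Prop :=
  ∀ (H : Type u) [NormedAddCommGroup H] [InnerProductSpace ℂ H] [CompleteSpace H] (S : Tracial H)
    (r : ℕ) (y : Op H) (δ : ℝ),
    Basics S → 1000 ≤ r → y ∈ S.M → IsSelfAdjoint y → S.E y = 0 → ‖y‖ ≤ Real.sqrt r / 5 → 0 < δ →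
    ∃ (fro : Fin r → Op H) (B : Fin r → Bool → Op H),
      (∀ c, fro c ∈ S.A ∧ IsStarProjection (fro c)) ∧
      (∀ c c', c ≠ c' → fro c * fro c' = 0) ∧
      (∀ c σ, B c σ ∈ S.M ∧ 0 ≤ B c σ) ∧
      (∀ c σ, sg σ • (fro c * y * fro c) ≤ (500 : ℝ) • fro c + fro c * B c σ * fro c) ∧
      S.tr (1 - ∑ c, fro c) + ∑ c, ∑ σ, S.tr (B c σ) ≤ δ

end Vale.Agent.P078.Tr.Iter
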