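import Vale.Agent.P078.Tr.Char
import Vale.Agent.P078.Tr.Basics.Cut
import Vale.Agent.P078.Tr.Basics.Trace

/-!
# Iteration: the trace and the expectation as linear, monotone maps
-/

open scoped ComplexOrder InnerProductSpace

noncomputable section

namespace Vale.Agent.P078.Tr.Iter

universe u

variable {H : Type u} [NormedAddCommGroup H] [InnerProductSpace ℂ H] [CompleteSpace H]
  (S : Tracial H)

lemma tau_one : S.tau (1 : Op H) = 1 := by
  simp only [Tracial.tau, one_apply_eq_self, inner_self_eq_norm_sq_to_K]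
  simpa using (S.norm_one.mapL Complex.ofRealCLM).tsum_eq

@[simp] lemma tr_one : S.tr (1 : Op H) = 1 := by simp [Tracial.tr]

@[simp] lemma tr_zero : S.tr (0 : Op H) = 0 := by simp [Tracial.tr, Tracial.tau]

lemma tr_le_norm (x : Op H) : S.tr x ≤ ‖x‖ := (le_abs_self _).trans (S.abs_tr_le x)

variable {S} (hB : Basics S)

include hB

lemma tr_mul_E {x b : Op H} (hx : x ∈ S.M) (hb : b ∈ S.A) :
    S.tr (b * S.E x) = S.tr (b * x) := congrArg Complex.re (hB.E_tau x hx b hb)

lemma tr_E_eq {x : Op H} (hx : x ∈ S.M) : S.tr (S.E x) = S.tr x := by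
  simpa using tr_mul_E hB hx (one_mem S.A)

lemma E_mem_M {x : Op H} (hx : x ∈ S.M) : S.E x ∈ S.M := S.le _ (hB.E_mem x hx)

lemma E_rsmul (c : ℝ) {x : Op H} (hx : x ∈ S.M) : S.E (c • x) = c • S.E x := by
  rw [← Complex.coe_smul, hB.E_smul _ x hx, Complex.coe_smul]

lemma E_neg {x : Op H} (hx : x ∈ S.M) : S.E (-x) = -S.E x := by
  rw [← neg_one_smul ℝ x, E_rsmul hB _ hx, neg_one_smul]

lemma E_sub {x y : Op H} (hx : x ∈ S.M) (hy : y ∈ S.M) : S.E (x - y) = S.E x - S.E y := by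
  rw [sub_eq_add_neg, hB.E_add x hx (-y) (neg_mem hy), E_neg hB hy, sub_eq_add_neg]

lemma E_zero : S.E (0 : Op H) = 0 := hB.E_self 0 (zero_mem _)

lemma E_sum {ι : Type*} (s : Finset ι) (f : ι → Op H) (h : ∀ i ∈ s, f i ∈ S.M) :
    S.E (∑ i ∈ s, f i) = ∑ i ∈ s, S.E (f i) := by
  classical
  induction s using Finset.induction_on with
  | empty => simpa using E_zero hB
  | insert i s hi ih =>
    rw [Finset.sum_insert hi, Finset.sum_insert hi, hB.E_add _ (h i (Finset.mem_insert_self i s)) _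
      (sum_mem fun j hj => h j (Finset.mem_insert_of_mem hj)),
      ih fun j hj => h j (Finset.mem_insert_of_mem hj)]

lemma E_mono {x y : Op H} (hx : x ∈ S.M) (hy : y ∈ S.M) (h : x ≤ y) : S.E x ≤ S.E y := by
  have := hB.E_nonneg (y - x) (sub_mem hy hx) (sub_nonneg.2 h)
  rwa [E_sub hB hy hx, sub_nonneg] at this

lemma E_isSelfAdjoint {x : Op H} (hx : x ∈ S.M) (h : IsSelfAdjoint x) :
    IsSelfAdjoint (S.E x) := by
  rw [IsSelfAdjoint, ← hB.E_star x hx, h.star_eq]

end Vale.Agent.P078.Tr.Iter
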